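import Mathlib

/-!
Enough primes in `(2 ^ (v - 6), 2 ^ v]`, from Chebyshev's bounds.
-/

namespace Vale.Agent.P057

open Finset Real Chebyshev Filter Topology

theorem many_primes (R : ℕ) : ∃ v₀ : ℕ, ∀ v ≥ v₀,
    R * v ≤ ((Ioc (2 ^ (v - 6)) (2 ^ v)).filter Nat.Prime).card := by
  have hev : ∀ᶠ v : ℕ in atTop,
      ((R : ℝ) + 3) * ((v : ℝ) ^ 2 + v) / (√2) ^ v ≤ 1 / 2 ∧ 6 ≤ v := by
    have hs : (1 : ℝ) < √2 := by
      rw [Real.lt_sqrt zero_le_one]; norm_num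
    have h2 := tendsto_pow_const_div_const_pow_of_one_lt 2 hs
    have h1 := tendsto_pow_const_div_const_pow_of_one_lt 1 hs
    have h := (h2.add h1).const_mul ((R : ℝ) + 3)
    simp only [add_zero, mul_zero] at h
    have h' : Tendsto (fun v : ℕ => ((R : ℝ) + 3) * ((v : ℝ) ^ 2 + v) / (√2) ^ v) atTop (𝓝 0) := by
      refine h.congr fun v => ?_
      rw [pow_one]
      ring
    exact (h'.eventually (ge_mem_nhds (by norm_num))).and (eventually_ge_atTop 6)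
  obtain ⟨v₀, hv₀⟩ := eventually_atTop.1 hev
  refine ⟨v₀, fun v hv => ?_⟩
  obtain ⟨hsmall, hv6⟩ := hv₀ v hv
  obtain ⟨F, hF⟩ : ∃ F, F = (Ioc (2 ^ (v - 6)) (2 ^ v)).filter Nat.Prime := ⟨_, rfl⟩
  rw [← hF]
  have hge := theta_ge (2 ^ v)
  have hle := theta_le_log4_mul_x (x := ((2 ^ (v - 6) : ℕ) : ℝ)) (by positivity)
  have hdiff : θ ((2 ^ v : ℕ) : ℝ) - θ ((2 ^ (v - 6) : ℕ) : ℝ) ≤ F.card * ((v : ℝ) * log 2) := by
    rw [theta_eq_sum_primesLE_log, theta_eq_sum_primesLE_log]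
    have hmem : ∀ n p, p ∈ Nat.primesLE n ↔ p ≤ n ∧ p.Prime := fun n p => by
      simp [Nat.mem_primesLE]
    have hsub : Nat.primesLE (2 ^ (v - 6)) ⊆ Nat.primesLE (2 ^ v) := by
      intro p hp
      rw [hmem] at hp ⊢
      exact ⟨hp.1.trans (Nat.pow_le_pow_right (by norm_num) (Nat.sub_le _ _)), hp.2⟩
    rw [← sum_sdiff hsub, add_sub_cancel_right]
    refine (sum_le_card_nsmul _ _ ((v : ℝ) * log 2) fun p hp => ?_).trans ?_
    · rw [Finset.mem_sdiff, hmem] at hp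
      rw [← log_pow]
      exact log_le_log (by exact_mod_cast hp.1.2.pos) (by exact_mod_cast hp.1.1)
    · rw [nsmul_eq_mul]
      refine mul_le_mul_of_nonneg_right ?_ (by positivity)
      refine Nat.cast_le.2 (card_le_card fun p hp => ?_)
      rw [Finset.mem_sdiff, hmem, hmem] at hp
      rw [hF, mem_filter, mem_Ioc]
      exact ⟨⟨lt_of_not_ge fun h => hp.2 ⟨h, hp.1.2⟩, hp.1.1⟩, hp.1.2⟩
  have hl2 : 0 < log 2 := log_pos (by norm_num)
  have hlog4 : log 4 = 2 * log 2 := by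
    rw [show (4 : ℝ) = 2 ^ 2 by norm_num, log_pow]; push_cast; ring
  have hlogn : log (((2 ^ v : ℕ) : ℝ) + 1) ≤ ((v : ℝ) + 1) * log 2 := by
    have h1 : ((v : ℝ) + 1) * log 2 = log ((2 : ℝ) ^ (v + 1)) := by rw [log_pow]; push_cast; ring
    rw [h1]
    refine log_le_log (by positivity) ?_
    push_cast
    rw [pow_succ]
    linarith [one_le_pow₀ (show (1 : ℝ) ≤ 2 by norm_num) (n := v)]
  have hlogv : log ((2 ^ v : ℕ) : ℝ) = (v : ℝ) * log 2 := by push_cast; rw [log_pow]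
  have hsq : √((2 ^ v : ℕ) : ℝ) = (√2) ^ v := by
    push_cast
    rw [show (2 : ℝ) ^ v = ((√2) ^ v) ^ 2 by rw [← pow_mul, mul_comm, pow_mul, sq_sqrt (by norm_num : (0:ℝ) ≤ 2)],
      sqrt_sq (by positivity)]
  have hpow : ((2 ^ (v - 6) : ℕ) : ℝ) = ((√2) ^ v) ^ 2 / 64 := by
    rw [← pow_mul, mul_comm, pow_mul, sq_sqrt (by norm_num : (0:ℝ) ≤ 2)]
    push_cast
    have : (2 : ℝ) ^ v = 2 ^ (v - 6) * 64 := by
      rw [show (64 : ℝ) = 2 ^ 6 by norm_num, ← pow_add]; congr 1; omega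
    rw [this]; ring
  have hn : ((2 ^ v : ℕ) : ℝ) = ((√2) ^ v) ^ 2 := by
    rw [← pow_mul, mul_comm, pow_mul, sq_sqrt (by norm_num : (0:ℝ) ≤ 2)]; push_cast; rfl
  have hw : 0 < (√2) ^ v := by positivity
  rw [hlogv, hsq] at hge
  rw [hlog4, hpow] at hle
  rw [hn] at hge hlogn
  rw [hpow, hn] at hdiff
  obtain ⟨W, hW⟩ : ∃ W, W = (√2) ^ v := ⟨_, rfl⟩
  rw [← hW] at hge hle hlogn hdiff hw hsmall
  have key : (W ^ 2 * (31 / 32) - ((v : ℝ) + 1) - 2 * W * v) * log 2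
      ≤ ((F.card : ℝ) * v) * log 2 := by
    nlinarith [hge, hle, hlogn, hdiff]
  have key2 := le_of_mul_le_mul_right key hl2
  rw [div_le_iff₀ hw] at hsmall
  have hv1 : (6 : ℝ) ≤ v := by exact_mod_cast hv6
  have hW1 : 1 ≤ W := hW ▸ one_le_pow₀ (Real.one_le_sqrt.2 (by norm_num))
  have hR : (0 : ℝ) ≤ R := Nat.cast_nonneg R
  have hfin : (R : ℝ) * v * v ≤ (F.card : ℝ) * v := by
    have e2 : ((R : ℝ) + 3) * ((v : ℝ) ^ 2 + v) * W ≤ 1 / 2 * W * W :=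
      mul_le_mul_of_nonneg_right hsmall hw.le
    have e3 : (R : ℝ) * v ^ 2 ≤ (R : ℝ) * v ^ 2 * W := le_mul_of_one_le_right (by positivity) hW1
    have e4 : (0 : ℝ) ≤ (R : ℝ) * v * W := by positivity
    have e5 : (v : ℝ) + 1 ≤ ((v : ℝ) + 1) * W := le_mul_of_one_le_right (by positivity) hW1
    have e6 : 6 * W ≤ (v : ℝ) * W := mul_le_mul_of_nonneg_right hv1 hw.le
    have e7 : (0 : ℝ) ≤ (v : ℝ) ^ 2 * W := by positivity
    nlinarith
  have : (R : ℝ) * v ≤ F.card := le_of_mul_le_mul_right hfin (by linarith)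
  exact_mod_cast this

end Vale.Agent.P057
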