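import Vale.Agent.P057.Step
import Vale.Agent.P057.Primes

/-!
Optimisation of the parameters of the recursion.
-/

namespace Vale.Agent.P057

open Finset Real Filter Topology

/-- Sets avoiding degree `d` of density `2 ^ (-C L ^ (1/m))` exist for every `C > m K`. -/
def Good (k d m : ℕ) (K : ℝ) : Prop :=
  ∀ C : ℝ, (m : ℝ) * K < C → ∀ᶠ L : ℕ in atTop, ∃ B : Finset ℕ, B ⊆ range (2 ^ L) ∧
    Avoid k d B ∧ (2 : ℝ) ^ L * 2 ^ (-(C * (L : ℝ) ^ ((1 : ℝ) / m))) ≤ B.card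

theorem tendsto_root (m : ℕ) (hm : 1 ≤ m) :
    Tendsto (fun L : ℕ => (L : ℝ) ^ ((1 : ℝ) / m)) atTop atTop :=
  (tendsto_rpow_atTop (by
    have : (1 : ℝ) ≤ m := by exact_mod_cast hm
    positivity)).comp tendsto_natCast_atTop_atTop

theorem root_pow (m L : ℕ) (hm : 1 ≤ m) : ((L : ℝ) ^ ((1 : ℝ) / m)) ^ m = L := by
  rw [one_div]
  exact Real.rpow_inv_natCast_pow (Nat.cast_nonneg L) (by omega)

theorem logb_add_one_le (D : ℕ) : logb 2 ((D : ℝ) + 1) ≤ 4 * √((D : ℝ) + 1) := by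
  have h1 := Real.log_le_rpow_div (x := (D : ℝ) + 1) (ε := 1 / 2) (by positivity) (by norm_num)
  rw [← Real.sqrt_eq_rpow] at h1
  have h2 := Real.log_two_gt_d9
  have h3 := Real.sqrt_nonneg ((D : ℝ) + 1)
  rw [Real.logb, div_le_iff₀ (by linarith)]
  calc log ((D : ℝ) + 1) ≤ √((D : ℝ) + 1) / (1 / 2) := h1
    _ = √((D : ℝ) + 1) * 2 := by ring
    _ ≤ √((D : ℝ) + 1) * (4 * log 2) := mul_le_mul_of_nonneg_left (by linarith) h3
    _ = 4 * √((D : ℝ) + 1) * log 2 := by ring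

theorem good_two (k d b : ℕ) (hb2 : 2 ≤ b) (hcore : Core k d b) :
    Good k d 2 √(2 * logb 2 (b : ℝ)) := by
  have hbR : (1 : ℝ) < b := by exact_mod_cast hb2
  obtain ⟨c, hc⟩ : ∃ c, c = logb 2 (b : ℝ) := ⟨_, rfl⟩
  have hcpos : 0 < c := hc ▸ logb_pos (by norm_num) hbR
  have hbc : (2 : ℝ) ^ c = b := hc ▸ rpow_logb (by norm_num) (by norm_num) (by linarith)
  rw [← hc]
  intro C hC
  push_cast at hC
  obtain ⟨α, hα⟩ : ∃ α, α = √(2 / c) := ⟨_, rfl⟩
  have hαpos : 0 < α := hα ▸ Real.sqrt_pos.2 (by positivity)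
  have hopt : c * α + 2 / α = 2 * √(2 * c) := by
    have h1 : α * α = 2 / c := hα ▸ Real.mul_self_sqrt (by positivity)
    have h1' : c * (α * α) = 2 := by rw [h1]; field_simp
    have h2 : c * α = √(2 * c) := by
      rw [eq_comm, Real.sqrt_eq_iff_mul_self_eq (by positivity) (by positivity)]
      symm
      calc c * α * (c * α) = c * (c * (α * α)) := by ring
        _ = 2 * c := by rw [h1']; ring
    have h3 : 2 / α = c * α := by
      rw [div_eq_iff hαpos.ne']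
      linarith
    rw [h3, h2]; ring
  obtain ⟨g, hg⟩ : ∃ g, g = C - (c * α + 2 / α) := ⟨_, rfl⟩
  have hgpos : 0 < g := by rw [hg, hopt]; linarith
  obtain ⟨v₀, hv₀⟩ := many_primes ⌈(α + 1) ^ 2⌉₊
  filter_upwards [(tendsto_root 2 (by norm_num)).eventually_ge_atTop 1,
    (tendsto_root 2 (by norm_num)).eventually_ge_atTop ((α + 2) / (g / 8) ^ 2),
    (tendsto_root 2 (by norm_num)).eventually_ge_atTop (2 * (15 + c) / g),
    (tendsto_root 2 (by norm_num)).eventually_ge_atTop ((v₀ : ℝ) * (α + 1))] with L h1 h2 h3 h4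
  obtain ⟨s, hs⟩ : ∃ s, s = (L : ℝ) ^ ((1 : ℝ) / (2 : ℕ)) := ⟨_, rfl⟩
  rw [← hs] at h1 h2 h3 h4 ⊢
  have hss : s * s = L := by rw [hs, ← pow_two, root_pow 2 L (by norm_num)]
  obtain ⟨D, hD⟩ : ∃ D, D = ⌈α * s⌉₊ := ⟨_, rfl⟩
  have hs0 : 0 < s := by linarith
  have hD1 : α * s ≤ D := hD ▸ Nat.le_ceil _
  have hD2 : (D : ℝ) ≤ α * s + 1 := hD ▸ (Nat.ceil_lt_add_one (by positivity)).le
  have hDpos : 0 < D := hD ▸ Nat.ceil_pos.2 (by positivity)
  obtain ⟨v, hv⟩ : ∃ v, v = L / D + 7 := ⟨_, rfl⟩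
  have hvD : L ≤ (v - 6) * D := by
    have h := Nat.lt_mul_div_succ L hDpos
    rw [hv, Nat.add_sub_assoc (show 6 ≤ 7 by norm_num), mul_comm]
    exact h.le
  have hvR : (v : ℝ) ≤ s / α + 7 := by
    have hdiv : ((L / D : ℕ) : ℝ) ≤ s / α := by
      refine (Nat.cast_div_le).trans ?_
      rw [div_le_div_iff₀ (by exact_mod_cast hDpos) hαpos, ← hss]
      calc s * s * α = s * (α * s) := by ring
        _ ≤ s * D := mul_le_mul_of_nonneg_left hD1 hs0.le
    rw [hv]; push_cast; linarith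
  have hvlow : s / (α + 1) ≤ (v : ℝ) := by
    have h5 : (L : ℝ) ≤ v * D := by
      have : L ≤ v * D := hvD.trans (Nat.mul_le_mul_right _ (Nat.sub_le _ _))
      exact_mod_cast this
    rw [div_le_iff₀ (by linarith)]
    have h6 : (v : ℝ) * D ≤ v * ((α + 1) * s) :=
      mul_le_mul_of_nonneg_left (by linarith) (Nat.cast_nonneg v)
    refine le_of_mul_le_mul_right ?_ hs0
    rw [hss]
    linarith
  have hvv : v₀ ≤ v := by
    have : (v₀ : ℝ) ≤ s / (α + 1) := by rw [le_div_iff₀ (by linarith)]; linarith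
    exact_mod_cast this.trans hvlow
  have hDprimes : D ≤ ((Ioc (2 ^ (v - 6)) (2 ^ v)).filter Nat.Prime).card := by
    refine le_trans ?_ (hv₀ v hvv)
    have h5 : (D : ℝ) ≤ (⌈(α + 1) ^ 2⌉₊ : ℝ) * v := by
      calc (D : ℝ) ≤ (α + 1) * s := by linarith
        _ = (α + 1) ^ 2 * (s / (α + 1)) := by field_simp
        _ ≤ (⌈(α + 1) ^ 2⌉₊ : ℝ) * v :=
          mul_le_mul (Nat.le_ceil _) hvlow (by positivity) (Nat.cast_nonneg _)
    exact_mod_cast h5
  obtain ⟨P, hPsub, hPcard⟩ := exists_subset_card_eq hDprimes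
  obtain ⟨m, hm⟩ : ∃ m : Fin D ↪o ℕ, m = P.orderEmbOfFin hPcard := ⟨_, rfl⟩
  have hmem : ∀ i, (2 ^ (v - 6) < m i ∧ m i ≤ 2 ^ v) ∧ (m i).Prime := by
    intro i
    have h5 := hPsub (hm ▸ orderEmbOfFin_mem P hPcard i)
    simpa [mem_filter, mem_Ioc] using h5
  have hodd : ∀ i, m i ≠ 2 := by
    intro i h5
    have h6 := (hmem i).1.1
    rw [h5] at h6
    have hv7 : 7 ≤ v := hv ▸ Nat.le_add_left _ _
    have : 2 ^ 1 ≤ 2 ^ (v - 6) := Nat.pow_le_pow_right (by norm_num) (by omega)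
    omega
  obtain ⟨B, hBsub, hBav, hBcard⟩ := exists_base d k D (2 ^ v) b (by omega) hcore (fun i => m i) m.injective
    (fun i => (hmem i).2) hodd (fun i => (hmem i).1.2)
  obtain ⟨B', hB'sub, hB'av, hB'card⟩ := exists_translate k d _ (2 ^ L) (Nat.two_pow_pos L) B hBsub hBav
  refine ⟨B', hB'sub, hB'av, ?_⟩
  have hV : 2 ^ L ≤ ∏ i, m i := by
    refine le_trans ?_ (Finset.pow_card_le_prod univ (fun i => m i) (2 ^ (v - 6)) fun i _ => (hmem i).1.1.le)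
    rw [card_univ, Fintype.card_fin, ← pow_mul]
    exact Nat.pow_le_pow_right (by norm_num) hvD
  have hBpos : 0 < B.card := by
    rcases Nat.eq_zero_or_pos B.card with h5 | h5
    · rw [h5, mul_zero] at hBcard
      have := Nat.two_pow_pos L
      omega
    · exact h5
  have hnat : 2 ^ L ≤ 2 * b ^ D * (D + 1) * 2 ^ (2 * v) * B'.card := by
    refine Nat.le_of_mul_le_mul_right ?_ hBpos
    refine hB'card.trans ?_
    refine le_trans (Nat.mul_le_mul_right _ (Nat.add_le_add_left hV _)) ?_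
    refine le_trans (Nat.mul_le_mul_right _ (Nat.add_le_add hBcard hBcard)) ?_
    have h5 : D * (2 ^ v) ^ 2 + 1 ≤ (D + 1) * 2 ^ (2 * v) := by
      rw [← pow_mul, mul_comm v 2, add_mul, one_mul]
      exact Nat.add_le_add_left (Nat.one_le_two_pow) _
    calc (b ^ D * (D * (2 ^ v) ^ 2 + 1) * B.card + b ^ D * (D * (2 ^ v) ^ 2 + 1) * B.card) * B'.card
        = 2 * b ^ D * (D * (2 ^ v) ^ 2 + 1) * (B'.card * B.card) := by ring
      _ ≤ 2 * b ^ D * ((D + 1) * 2 ^ (2 * v)) * (B'.card * B.card) :=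
          Nat.mul_le_mul_right _ (Nat.mul_le_mul_left _ h5)
      _ = 2 * b ^ D * (D + 1) * 2 ^ (2 * v) * B'.card * B.card := by ring
  have hE : 1 + c * D + logb 2 ((D : ℝ) + 1) + 2 * v ≤ C * s := by
    have e1 : √((D : ℝ) + 1) ≤ g / 8 * s := by
      rw [div_le_iff₀ (by positivity)] at h2
      rw [Real.sqrt_le_left (by positivity)]
      calc (D : ℝ) + 1 ≤ (α + 2) * s := by linarith
        _ ≤ s * (g / 8) ^ 2 * s := mul_le_mul_of_nonneg_right h2 hs0.le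
        _ = (g / 8 * s) ^ 2 := by ring
    have e2 := logb_add_one_le D
    rw [div_le_iff₀ hgpos] at h3
    have e3 : c * D ≤ c * (α * s + 1) := mul_le_mul_of_nonneg_left hD2 hcpos.le
    have e4 : C * s = c * α * s + 2 * (s / α) + g * s := by rw [hg]; ring
    linarith
  have hbig : (2 : ℝ) * (b : ℝ) ^ D * ((D : ℝ) + 1) * 2 ^ (2 * v) ≤ (2 : ℝ) ^ (C * s) := by
    refine le_trans (le_of_eq ?_) (rpow_le_rpow_of_exponent_le (by norm_num) hE)
    rw [rpow_add (by norm_num), rpow_add (by norm_num), rpow_add (by norm_num), rpow_one,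
      rpow_mul (by norm_num), hbc, rpow_natCast,
      rpow_logb (by norm_num) (by norm_num) (by positivity)]
    congr 1
    rw [← rpow_natCast]
    push_cast
    rfl
  rw [rpow_neg (by norm_num), ← div_eq_mul_inv, div_le_iff₀ (rpow_pos_of_pos (by norm_num) _)]
  calc (2 : ℝ) ^ L ≤ 2 * (b : ℝ) ^ D * ((D : ℝ) + 1) * 2 ^ (2 * v) * B'.card := by
        exact_mod_cast hnat
    _ ≤ (2 : ℝ) ^ (C * s) * B'.card := mul_le_mul_of_nonneg_right hbig (Nat.cast_nonneg _)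
    _ = B'.card * (2 : ℝ) ^ (C * s) := mul_comm _ _

theorem good_step (k d m : ℕ) (K K' : ℝ) (hd : 1 ≤ d) (hm : 2 ≤ m) (hk : 2 * d + 1 ≤ k)
    (hKp : 0 < K) (hK'p : 0 < K') (hK : K' ^ (m + 1) = 2 * d * K ^ m)
    (h : Good k (2 * d) m K) : Good k d (m + 1) K' := by
  intro C hC
  push_cast at hC
  have hdR : (0 : ℝ) < d := by exact_mod_cast hd
  obtain ⟨α, hα⟩ : ∃ α, α = K' / d := ⟨_, rfl⟩
  have hαpos : 0 < α := hα ▸ div_pos hK'p hdR
  have hm0 : m ≠ 0 := by omega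
  have hroot : (2 / α) ^ ((1 : ℝ) / m) = K' / K := by
    have h1 : 2 / α = (K' / K) ^ m := by
      rw [div_pow, hα]
      field_simp
      rw [pow_succ] at hK
      linarith
    rw [h1, one_div, Real.pow_rpow_inv_natCast (by positivity) hm0]
  obtain ⟨η, hη⟩ : ∃ η, η = (C - ((m : ℝ) + 1) * K') / (2 * (K' / K)) := ⟨_, rfl⟩
  have hηpos : 0 < η := hη ▸ div_pos (by linarith) (by positivity)
  obtain ⟨C', hC'⟩ : ∃ C', C' = (m : ℝ) * K + η := ⟨_, rfl⟩
  have hgood := h C' (by linarith)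
  obtain ⟨L₀, hL₀⟩ := eventually_atTop.1 hgood
  have hC'pos : 0 < C' := by
    have : (0 : ℝ) ≤ (m : ℝ) * K := by positivity
    linarith
  have hlim : Tendsto (fun s : ℝ => (d : ℝ) * α + s⁻¹
      + C' * (2 / α + (3 * α + 3) * s⁻¹) ^ ((1 : ℝ) / m)) atTop
      (𝓝 ((d : ℝ) * α + 0 + C' * (2 / α + (3 * α + 3) * 0) ^ ((1 : ℝ) / m))) := by
    refine (tendsto_const_nhds.add tendsto_inv_atTop_zero).add (tendsto_const_nhds.mul ?_)
    refine Tendsto.rpow_const ?_ (Or.inr (by positivity))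
    exact tendsto_const_nhds.add (tendsto_const_nhds.mul tendsto_inv_atTop_zero)
  have hlt : (d : ℝ) * α + 0 + C' * (2 / α + (3 * α + 3) * 0) ^ ((1 : ℝ) / m) < C := by
    rw [mul_zero, add_zero, add_zero, hroot, hC', add_mul, hη]
    have h1 : (d : ℝ) * α = K' := by rw [hα]; field_simp
    have h2 : (m : ℝ) * K * (K' / K) = m * K' := by field_simp
    have h3 : (C - ((m : ℝ) + 1) * K') / (2 * (K' / K)) * (K' / K) = (C - ((m : ℝ) + 1) * K') / 2 := by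
      field_simp
    rw [h1, h2, h3]
    linarith
  have hev := (tendsto_root (m + 1) (by omega)).eventually (hlim.eventually_le_const hlt)
  filter_upwards [hev, (tendsto_root (m + 1) (by omega)).eventually_ge_atTop 1,
    (tendsto_root (m + 1) (by omega)).eventually_ge_atTop ((L₀ : ℝ) / α)] with L hF h1 h2
  obtain ⟨s, hs⟩ : ∃ s, s = (L : ℝ) ^ ((1 : ℝ) / ((m + 1 : ℕ) : ℝ)) := ⟨_, rfl⟩
  rw [← hs] at hF h1 h2 ⊢
  have hsL : s ^ m * s = L := by rw [← pow_succ, hs, root_pow (m + 1) L (by omega)]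
  have hs0 : 0 < s := by linarith
  obtain ⟨D, hD⟩ : ∃ D, D = ⌈α * s⌉₊ := ⟨_, rfl⟩
  have hD1 : α * s ≤ D := hD ▸ Nat.le_ceil _
  have hD2 : (D : ℝ) ≤ α * s + 1 := hD ▸ (Nat.ceil_lt_add_one (by positivity)).le
  have hDpos : 0 < D := hD ▸ Nat.ceil_pos.2 (by positivity)
  obtain ⟨n, rfl⟩ : ∃ n, D = n + 1 := ⟨D - 1, by omega⟩
  push_cast at hD1 hD2
  obtain ⟨a, ha⟩ : ∃ a, a = L / (n + 1) := ⟨_, rfl⟩
  obtain ⟨t, ht⟩ : ∃ t, t = L % (n + 1) := ⟨_, rfl⟩
  have hsplit : a * n + (a + t) = L := by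
    have := Nat.div_add_mod L (n + 1)
    rw [ha, ht, mul_comm (L / (n + 1)) n]
    rw [add_mul, one_mul] at this
    omega
  obtain ⟨L', hL'⟩ : ∃ L', L' = 2 * (a + t) + (n + 1) := ⟨_, rfl⟩
  have hL'0 : L₀ ≤ L' := by
    rw [div_le_iff₀ hαpos] at h2
    have h6 : (L₀ : ℝ) ≤ ((n + 1 : ℕ) : ℝ) := by push_cast; linarith
    have h7 : L₀ ≤ n + 1 := by exact_mod_cast h6
    omega
  obtain ⟨B, hBsub, hBav, hBcard⟩ := hL₀ L' hL'0
  obtain ⟨A, hAsub, hAav, hAcard⟩ := exists_step k d n a t L' (by omega) B hBsub hBav (by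
    rw [hL', pow_add 2 (2 * (a + t)), ← pow_mul, mul_comm (a + t) 2, mul_comm (n + 1)]
    exact Nat.mul_le_mul_left _ Nat.lt_two_pow_self.le)
  rw [hsplit] at hAsub hAcard
  refine ⟨A, hAsub, hAav, ?_⟩
  have hL'le : (L' : ℝ) ≤ (2 / α + (3 * α + 3) * s⁻¹) * s ^ m := by
    have haR : (a : ℝ) ≤ s ^ m / α := by
      rw [le_div_iff₀ hαpos]
      have h5 : (a : ℝ) * ((n : ℝ) + 1) ≤ L := by
        have : a * (n + 1) ≤ L := ha ▸ Nat.div_mul_le_self L (n + 1)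
        exact_mod_cast this
      refine le_of_mul_le_mul_right ?_ hs0
      rw [hsL, mul_assoc]
      exact (mul_le_mul_of_nonneg_left hD1 (Nat.cast_nonneg a)).trans h5
    have htR : (t : ℝ) ≤ α * s + 1 := by
      have h6 : t ≤ n + 1 := ht ▸ (Nat.mod_lt _ hDpos).le
      have h7 : (t : ℝ) ≤ (n : ℝ) + 1 := by exact_mod_cast h6
      linarith
    have hsm : (3 * α + 3) * s ≤ (3 * α + 3) * s⁻¹ * s ^ m := by
      have h6 : s ^ 2 ≤ s ^ m := pow_le_pow_right₀ h1 hm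
      calc (3 * α + 3) * s = (3 * α + 3) * s⁻¹ * s ^ 2 := by field_simp
        _ ≤ _ := mul_le_mul_of_nonneg_left h6 (by positivity)
    rw [hL']
    push_cast
    rw [add_mul, div_mul_eq_mul_div]
    have : 2 * (s ^ m / α) = 2 * s ^ m / α := by ring
    linarith
  have hroot' : (L' : ℝ) ^ ((1 : ℝ) / m) ≤ (2 / α + (3 * α + 3) * s⁻¹) ^ ((1 : ℝ) / m) * s := by
    refine (rpow_le_rpow (Nat.cast_nonneg _) hL'le (by positivity)).trans (le_of_eq ?_)
    rw [mul_rpow (by positivity) (by positivity), one_div, Real.pow_rpow_inv_natCast hs0.le hm0]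
  have hE : (d : ℝ) * n + 1 + C' * (L' : ℝ) ^ ((1 : ℝ) / m) ≤ C * s := by
    have e1 : (d : ℝ) * n ≤ d * (α * s) := mul_le_mul_of_nonneg_left (by linarith) hdR.le
    have e2 := mul_le_mul_of_nonneg_left hroot' hC'pos.le
    have e3 := mul_le_mul_of_nonneg_right hF hs0.le
    rw [add_mul, add_mul, inv_mul_cancel₀ hs0.ne'] at e3
    linarith
  have hAR : (2 : ℝ) ^ L * B.card ≤ 2 ^ (d * n + 1) * 2 ^ L' * A.card := by exact_mod_cast hAcard
  obtain ⟨Z, hZ⟩ : ∃ Z, Z = C' * (L' : ℝ) ^ ((1 : ℝ) / m) := ⟨_, rfl⟩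
  rw [← hZ] at hBcard hE
  rw [rpow_neg (by norm_num), ← div_eq_mul_inv, div_le_iff₀ (rpow_pos_of_pos (by norm_num) _)] at hBcard ⊢
  have h2L' : (0 : ℝ) < 2 ^ L' := by positivity
  refine le_of_mul_le_mul_right ?_ h2L'
  calc (2 : ℝ) ^ L * 2 ^ L' ≤ (2 : ℝ) ^ L * (B.card * 2 ^ Z) :=
        mul_le_mul_of_nonneg_left hBcard (by positivity)
    _ = (2 : ℝ) ^ L * B.card * 2 ^ Z := by ring
    _ ≤ 2 ^ (d * n + 1) * 2 ^ L' * A.card * 2 ^ Z :=
        mul_le_mul_of_nonneg_right hAR (rpow_nonneg (by norm_num) _)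
    _ = A.card * ((2 : ℝ) ^ (d * n + 1) * 2 ^ Z) * 2 ^ L' := by ring
    _ ≤ A.card * (2 : ℝ) ^ (C * s) * 2 ^ L' := by
        refine mul_le_mul_of_nonneg_right (mul_le_mul_of_nonneg_left ?_ (Nat.cast_nonneg _)) h2L'.le
        rw [← rpow_natCast, ← rpow_add (by norm_num)]
        refine rpow_le_rpow_of_exponent_le (by norm_num) ?_
        push_cast
        linarith

end Vale.Agent.P057
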