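import Vale.Agent.P057.Step

/-!
The outermost level: a set of residues of density `7/12` in which every linear five term
sequence modulo `p` is linear over the integers.
-/

namespace Vale.Agent.P057

open Finset Polynomial fwdDiff

/-- The residues `y < p` with `3 y < 2 p`, and with `2 y < p` when `y` is odd. -/
def win (p : ℕ) : Finset ℕ :=
  (range p).filter (fun y => 3 * y < 2 * p ∧ (y % 2 = 1 → 2 * y < p))

theorem mem_win {p y : ℕ} : y ∈ win p ↔ y < p ∧ 3 * y < 2 * p ∧ (y % 2 = 1 → 2 * y < p) := by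
  simp [win]

theorem card_win (p : ℕ) : 7 * p ≤ 12 * (win p).card + 6 := by
  have h : (range ((p + 2) / 3)).image (fun z => 2 * z)
      ∪ (range ((p + 1) / 4)).image (fun z => 2 * z + 1) ⊆ win p := by
    intro y hy
    rw [mem_win]
    rcases mem_union.1 hy with h | h <;> obtain ⟨z, hz, rfl⟩ := mem_image.1 h <;>
      rw [mem_range] at hz <;> refine ⟨?_, ?_, ?_⟩ <;> omega
  have hd : Disjoint ((range ((p + 2) / 3)).image (fun z => 2 * z))
      ((range ((p + 1) / 4)).image (fun z => 2 * z + 1)) := by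
    rw [disjoint_left]
    intro y hy hy'
    obtain ⟨z, -, rfl⟩ := mem_image.1 hy
    obtain ⟨w, -, hw⟩ := mem_image.1 hy'
    omega
  have hc := card_le_card h
  rw [card_union_of_disjoint hd, card_image_of_injective _ (fun a b h => by simpa using h),
    card_image_of_injective _ (fun a b h => by simpa using h), card_range, card_range] at hc
  omega

/-- A second difference of values in the window is `0` or `±p`. -/
theorem win_diff {p a b c : ℤ} (ha : 0 ≤ a ∧ 3 * a < 2 * p) (hb : 0 ≤ b ∧ 3 * b < 2 * p)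
    (hc : 0 ≤ c ∧ 3 * c < 2 * p) (h : p ∣ a - 2 * b + c) :
    a - 2 * b + c = 0 ∨ a - 2 * b + c = p ∨ a - 2 * b + c = -p := by
  obtain ⟨e, he⟩ := h
  have h1 : e < 2 := by
    by_contra hcon
    push Not at hcon
    have : p * 2 ≤ p * e := mul_le_mul_of_nonneg_left hcon (by omega)
    omega
  have h2 : -2 < e := by
    by_contra hcon
    push Not at hcon
    have : p * e ≤ p * (-2) := mul_le_mul_of_nonneg_left hcon (by omega)
    omega
  obtain rfl | rfl | rfl : e = 0 ∨ e = 1 ∨ e = -1 := by omega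
  · left; omega
  · right; left; omega
  · right; right; omega

/-- A linear five term sequence modulo `p` inside the window is linear over `ℤ`. -/
theorem win_five {p : ℕ} (hp : p % 2 = 1) (y : ℕ → ℤ)
    (hy : ∀ j < 5, 0 ≤ y j ∧ 3 * y j < 2 * p ∧ (y j % 2 = 1 → 2 * y j < p))
    (hd : ∀ j < 3, (p : ℤ) ∣ y j - 2 * y (j + 1) + y (j + 2)) :
    ∀ j < 3, y j - 2 * y (j + 1) + y (j + 2) = 0 := by
  obtain ⟨a0, b0, c0⟩ := hy 0 (by norm_num)
  obtain ⟨a1, b1, c1⟩ := hy 1 (by norm_num)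
  obtain ⟨a2, b2, c2⟩ := hy 2 (by norm_num)
  obtain ⟨a3, b3, c3⟩ := hy 3 (by norm_num)
  obtain ⟨a4, b4, c4⟩ := hy 4 (by norm_num)
  have hp' : (p : ℤ) % 2 = 1 := by omega
  have e0 := win_diff ⟨a0, b0⟩ ⟨a1, b1⟩ ⟨a2, b2⟩ (hd 0 (by norm_num))
  have e1 := win_diff ⟨a1, b1⟩ ⟨a2, b2⟩ ⟨a3, b3⟩ (hd 1 (by norm_num))
  have e2 := win_diff ⟨a2, b2⟩ ⟨a3, b3⟩ ⟨a4, b4⟩ (hd 2 (by norm_num))
  have key : y 0 - 2 * y 1 + y 2 = 0 ∧ y 1 - 2 * y 2 + y 3 = 0 ∧ y 2 - 2 * y 3 + y 4 = 0 := by
    rcases e0 with e0 | e0 | e0 <;> rcases e1 with e1 | e1 | e1 <;>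
      rcases e2 with e2 | e2 | e2 <;> omega
  intro j hj
  obtain rfl | rfl | rfl : j = 0 ∨ j = 1 ∨ j = 2 := by omega
  · exact key.1
  · exact key.2.1
  · exact key.2.2

theorem fwdDiff_two (v : ℕ → ℤ) (j : ℕ) :
    (fwdDiff 1)^[1 + 1] v j = v j - 2 * v (j + 1) + v (j + 2) := by
  show v (j + 1 + 1) - v (j + 1) - (v (j + 1) - v j) = _
  ring_nf

/-- A linear `k`-term sequence modulo `p` inside the window is linear over `ℤ`. -/
theorem win_linear {p k : ℕ} (hk : 5 ≤ k) (hp : p % 2 = 1) (y : ℕ → ℤ)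
    (hy : ∀ j < k, 0 ≤ y j ∧ 3 * y j < 2 * p ∧ (y j % 2 = 1 → 2 * y j < p))
    (hd : ∀ j, j + 1 + 1 < k → (p : ℤ) ∣ (fwdDiff 1)^[1 + 1] y j) :
    ∀ j, j + 1 + 1 < k → (fwdDiff 1)^[1 + 1] y j = 0 := by
  intro j hj
  obtain ⟨o, ho, ho2, ho3⟩ : ∃ o, o ≤ j ∧ j < o + 3 ∧ o + 4 < k :=
    ⟨min j (k - 5), min_le_left _ _, by omega, by omega⟩
  have h := win_five hp (fun i => y (o + i)) (fun i hi => hy _ (by omega)) (fun i hi => by
    have := hd (o + i) (by omega)
    rwa [fwdDiff_two] at this) (j - o) (by omega)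
  beta_reduce at h
  rw [show o + (j - o) = j by omega, show o + (j - o + 1) = j + 1 by omega,
    show o + (j - o + 2) = j + 2 by omega] at h
  rwa [fwdDiff_two]

/-- The outermost step. -/
theorem exists_top (k D Mx L' : ℕ) (hk : 5 ≤ k) (m : Fin D → ℕ)
    (hinj : Function.Injective m) (hp : ∀ i, (m i).Prime) (hodd : ∀ i, m i ≠ 2)
    (hMx : ∀ i, m i ≤ Mx) (B : Finset ℕ) (hBL : B ⊆ range (2 ^ L')) (hB : Avoid k 2 B)
    (hQ : D * Mx ^ 2 ≤ 2 ^ L') :
    ∃ A : Finset ℕ, A ⊆ range (∏ i, m i) ∧ Avoid k 1 A ∧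
      (∏ i, (win (m i)).card) * B.card ≤ 2 * 2 ^ L' * A.card := by
  obtain ⟨U, hU⟩ : ∃ U, U = (range (∏ i, m i)).filter (fun x => ∀ i, x % m i ∈ win (m i)) :=
    ⟨_, rfl⟩
  have hpp : Set.Pairwise (↑(univ : Finset (Fin D))) (Function.onFun Nat.Coprime m) :=
    fun i _ j _ hij => (Nat.coprime_primes (hp i) (hp j)).2 (fun h => hij (hinj h))
  have hne : ∀ i ∈ (univ : Finset (Fin D)), m i ≠ 0 := fun i _ => (hp i).ne_zero
  have hcard : ∏ i, (win (m i)).card ≤ U.card := by
    rw [← Fintype.card_piFinset]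
    have hmod : ∀ t ∈ Fintype.piFinset (fun i => win (m i)), ∀ i,
        (Nat.chineseRemainderOfFinset t m univ hne hpp : ℕ) % m i = t i := by
      intro t ht i
      rw [Fintype.mem_piFinset] at ht
      have h2 := (Nat.chineseRemainderOfFinset t m univ hne hpp).2 i (mem_univ i)
      exact Eq.trans h2 (Nat.mod_eq_of_lt (mem_win.1 (ht i)).1)
    refine card_le_card_of_injOn (fun t => (Nat.chineseRemainderOfFinset t m univ hne hpp : ℕ)) ?_ ?_
    · intro t ht
      simp only [hU, coe_filter, mem_range, Set.mem_ofPred_eq]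
      refine ⟨Nat.chineseRemainderOfFinset_lt_prod _ _ hne hpp, fun i => ?_⟩
      rw [hmod t ht i]
      exact Fintype.mem_piFinset.1 ht i
    · intro t ht u hu htu
      funext i
      rw [← hmod t ht i, ← hmod u hu i]
      beta_reduce at htu
      rw [htu]
  obtain ⟨Q, hQd⟩ : ∃ Q, Q = D * Mx ^ 2 := ⟨_, rfl⟩
  have hxQ : ∀ x, ∑ i, (x % m i) ^ 2 ≤ Q := fun x => by
    refine (sum_le_card_nsmul univ (fun i => (x % m i) ^ 2) (Mx ^ 2) fun i _ => ?_).trans
      (by simp [hQd])
    exact Nat.pow_le_pow_left ((Nat.mod_lt _ (hp i).pos).le.trans (hMx i)) 2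
  obtain ⟨s, -, hs⟩ := exists_max_image (range (2 ^ L' + Q))
    (fun s => ((U ×ˢ B).filter (fun z => z.2 + Q - ∑ i, (z.1 % m i) ^ 2 = s)).card)
    ⟨0, mem_range.2 (Nat.add_pos_left (Nat.two_pow_pos _) _)⟩
  obtain ⟨F, hF⟩ : ∃ F, F = ((U ×ˢ B).filter (fun z => z.2 + Q - ∑ i, (z.1 % m i) ^ 2 = s)) :=
    ⟨_, rfl⟩
  have hFmem : ∀ z ∈ F, z.1 ∈ U ∧ z.2 ∈ B ∧ z.2 + Q = s + ∑ i, (z.1 % m i) ^ 2 := by
    intro z hz
    rw [hF, mem_filter, mem_product] at hz
    have := hxQ z.1
    exact ⟨hz.1.1, hz.1.2, by omega⟩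
  refine ⟨F.image (fun z => z.1), ?_, ?_, ?_⟩
  · intro v hv
    obtain ⟨z, hz, rfl⟩ := mem_image.1 hv
    have hx := (hFmem z hz).1
    rw [hU] at hx
    exact (mem_filter.1 hx).1
  · intro v hv p hp' hpv
    have hz : ∀ j, ∃ b, j < k → (v j, b) ∈ F := by
      intro j
      by_cases hj : j < k
      · obtain ⟨z, hz, hzv⟩ := mem_image.1 (hv j hj)
        exact ⟨z.2, fun _ => hzv ▸ hz⟩
      · exact ⟨0, fun h => absurd h hj⟩
    choose b hb using hz
    have hvz : ∀ l, l + 1 + 1 < k → (fwdDiff 1)^[1 + 1] (fun j => (v j : ℤ)) l = 0 := by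
      intro l hl
      have h := vanish_of_poly 1 k (fun j => ((v j : ℤ) : ℚ)) p hp'
        (fun j hj => by rw [hpv j hj]; simp) l hl
      rw [fwdDiff_cast] at h
      exact_mod_cast h
    have hUv : ∀ j < k, v j < ∏ i, m i ∧ ∀ i, v j % m i ∈ win (m i) := by
      intro j hj
      have h := (hFmem _ (hb j hj)).1
      rw [hU, mem_filter, mem_range] at h
      exact h
    obtain ⟨y, hy⟩ : ∃ y : Fin D → ℕ → ℤ, y = fun i j => ((v j % m i : ℕ) : ℤ) := ⟨_, rfl⟩
    have hP : ∀ i, ∃ P : ℚ[X], P.natDegree ≤ 1 ∧ ∀ j < k, P.eval (j : ℚ) = (y i j : ℚ) := by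
      intro i
      refine poly_of_vanish 1 k _ fun j hj => ?_
      rw [fwdDiff_cast, Int.cast_eq_zero]
      refine win_linear hk ((hp i).mod_two_eq_one_iff_ne_two.2 (hodd i)) (y i) ?_ ?_ j hj
      · intro l hl
        have h := mem_win.1 ((hUv l hl).2 i)
        simp only [hy]
        omega
      · intro l hl
        have e : y i = (fun j => (v j : ℤ)) + (-(m i : ℤ)) • (fun j => ((v j / m i : ℕ) : ℤ)) := by
          funext j
          simp only [hy, Pi.add_apply, Pi.smul_apply, smul_eq_mul]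
          push_cast
          rw [Int.emod_def]
          ring
        rw [e, fwdDiff_iter_add, fwdDiff_iter_const_smul]
        simp only [Pi.add_apply, Pi.smul_apply, smul_eq_mul, hvz l hl, zero_add]
        exact Dvd.dvd.mul_right (dvd_neg.2 dvd_rfl) _
    choose P hPd hPe using hP
    have hsq : (∑ i, P i * P i).natDegree ≤ 2 := by
      refine natDegree_sum_le_of_forall_le _ _ fun i _ => natDegree_mul_le.trans ?_
      have := hPd i
      omega
    have hsum : ∀ j < k, (∑ i, P i * P i).eval (j : ℚ) = ((∑ i, (v j % m i) ^ 2 : ℕ) : ℚ) := by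
      intro j hj
      rw [eval_finsetSum, Nat.cast_sum]
      refine sum_congr rfl fun i _ => ?_
      rw [eval_mul, hPe i j hj, Nat.cast_pow, hy, Int.cast_natCast]
      ring
    have hbc := hB b (fun j hj => (hFmem _ (hb j hj)).2.1)
      (∑ i, P i * P i + Polynomial.C ((s : ℚ) - Q))
      ((natDegree_add_le _ _).trans (max_le hsq ((natDegree_C _).le.trans (Nat.zero_le _))))
      (fun j hj => by
        rw [eval_add, eval_C, hsum j hj]
        have h := (hFmem _ (hb j hj)).2.2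
        have h' : ((b j : ℕ) : ℚ) + Q = s + ((∑ i, (v j % m i) ^ 2 : ℕ) : ℚ) := by exact_mod_cast h
        linarith)
    have hG : ∑ i, P i * P i - Polynomial.C (((∑ i, (v 0 % m i) ^ 2 : ℕ)) : ℚ) = 0 := by
      refine alt_elim 2 0 k _ 0
        ((natDegree_sub_le _ _).trans (max_le hsq ((natDegree_C _).le.trans (Nat.zero_le _))))
        (by rw [degree_zero]; exact WithBot.bot_lt_coe _) (by omega) fun j hj => ?_
      rw [eval_sub, eval_C, hsum j hj, eval_zero, mul_zero, add_zero, sub_eq_zero, Nat.cast_inj]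
      have h1 := (hFmem _ (hb j hj)).2.2
      have h2 := (hFmem _ (hb 0 (by omega))).2.2
      have h3 := hbc j hj
      simp only at h1 h2
      omega
    have hconst := const_of_sum_sq P _ (sub_eq_zero.1 hG)
    intro j hj
    have hmodeq : ∀ i, (m i : ℤ) ∣ (v j : ℤ) - v 0 := by
      intro i
      have h1 := hPe i j hj
      have h2 := hPe i 0 (by omega)
      rw [eq_C_of_natDegree_eq_zero (hconst i), eval_C] at h1 h2
      have h : y i j = y i 0 := by exact_mod_cast h1.symm.trans h2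
      simp only [hy, Int.natCast_inj] at h
      exact Nat.modEq_iff_dvd.1 h.symm
    have hdvd : (∏ i, (m i : ℤ)) ∣ (v j : ℤ) - v 0 := by
      refine Fintype.prod_dvd_of_coprime (fun i i' hii' => ?_) hmodeq
      exact Nat.isCoprime_iff_coprime.2 (hpp (mem_univ i) (mem_univ i') hii')
    have h1 := (hUv j hj).1
    have h2 := (hUv 0 (by omega)).1
    have h0 := Int.eq_zero_of_abs_lt_dvd hdvd (by
      rw [← Nat.cast_prod, abs_lt]
      constructor <;> omega)
    omega
  · have hinj' : (F.image (fun z => z.1)).card = F.card := by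
      refine card_image_of_injOn fun z hz u hu hzu => ?_
      have h1 := (hFmem z hz).2.2
      have h2 := (hFmem u hu).2.2
      beta_reduce at hzu
      refine Prod.ext hzu ?_
      rw [hzu] at h1
      omega
    rw [hinj']
    refine (Nat.mul_le_mul_right _ hcard).trans ?_
    have hsum : (U ×ˢ B).card ≤ (2 ^ L' + Q) * F.card := by
      rw [card_eq_sum_card_fiberwise (f := fun z => z.2 + Q - ∑ i, (z.1 % m i) ^ 2)
        (t := range (2 ^ L' + Q)) ?_]
      · refine (sum_le_card_nsmul _ _ _ hs).trans ?_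
        rw [card_range, smul_eq_mul, hF]
      · intro z hz
        simp only [coe_product, Set.mem_prod, mem_coe] at hz
        simp only [coe_range, Set.mem_Iio]
        have := mem_range.1 (hBL hz.2)
        omega
    rw [card_product] at hsum
    refine hsum.trans (Nat.mul_le_mul_right _ ?_)
    omega

end Vale.Agent.P057
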