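import Vale.Agent.P057.Asymp
import Vale.Agent.P057.Top

/-!
Optimisation of the outermost level.
-/

namespace Vale.Agent.P057

open Finset Real Filter Topology

theorem good_top (k m : ℕ) (K K' : ℝ) (hm : 2 ≤ m) (hk : 5 ≤ k)
    (hKp : 0 < K) (hK'p : 0 < K') (hK : K' ^ (m + 1) = 2 * logb 2 (12 / 7) * K ^ m)
    (h : Good k 2 m K) : Good k 1 (m + 1) K' := by
  obtain ⟨c, hc⟩ : ∃ c, c = logb 2 ((12 : ℝ) / 7) := ⟨_, rfl⟩
  rw [← hc] at hK
  have hcpos : 0 < c := hc ▸ logb_pos (by norm_num) (by norm_num)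
  have h2c : (2 : ℝ) ^ c = 12 / 7 := hc ▸ rpow_logb (by norm_num) (by norm_num) (by norm_num)
  intro C hC
  push_cast at hC
  obtain ⟨α, hα⟩ : ∃ α, α = K' / c := ⟨_, rfl⟩
  have hαpos : 0 < α := hα ▸ div_pos hK'p hcpos
  have hm0 : m ≠ 0 := by omega
  have hroot : (2 / α) ^ ((1 : ℝ) / m) = K' / K := by
    have h1 : 2 / α = (K' / K) ^ m := by
      rw [div_pow, hα]
      field_simp
      rw [pow_succ] at hK
      linarith
    rw [h1, one_div, Real.pow_rpow_inv_natCast (by positivity) hm0]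
  obtain ⟨η, hη⟩ : ∃ η, η = (C - ((m : ℝ) + 1) * K') / (2 * (K' / K)) := ⟨_, rfl⟩
  have hηpos : 0 < η := hη ▸ div_pos (by linarith) (by positivity)
  obtain ⟨C', hC'⟩ : ∃ C', C' = (m : ℝ) * K + η := ⟨_, rfl⟩
  have hgood := h C' (by linarith)
  obtain ⟨L₀, hL₀⟩ := eventually_atTop.1 hgood
  have hC'pos : 0 < C' := by
    have : (0 : ℝ) ≤ (m : ℝ) * K := by positivity
    linarith
  have hlim : Tendsto (fun s : ℝ => c * α + (c + 3) * s⁻¹
      + C' * (2 / α + (α + 15) * s⁻¹) ^ ((1 : ℝ) / m)) atTop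
      (𝓝 (c * α + (c + 3) * 0 + C' * (2 / α + (α + 15) * 0) ^ ((1 : ℝ) / m))) := by
    refine (tendsto_const_nhds.add (tendsto_const_nhds.mul tendsto_inv_atTop_zero)).add
      (tendsto_const_nhds.mul ?_)
    refine Tendsto.rpow_const ?_ (Or.inr (by positivity))
    exact tendsto_const_nhds.add (tendsto_const_nhds.mul tendsto_inv_atTop_zero)
  have hlt : c * α + (c + 3) * 0 + C' * (2 / α + (α + 15) * 0) ^ ((1 : ℝ) / m) < C := by
    rw [mul_zero, mul_zero, add_zero, add_zero, hroot, hC', add_mul, hη]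
    have h1 : c * α = K' := by rw [hα]; field_simp
    have h2 : (m : ℝ) * K * (K' / K) = m * K' := by field_simp
    have h3 : (C - ((m : ℝ) + 1) * K') / (2 * (K' / K)) * (K' / K) = (C - ((m : ℝ) + 1) * K') / 2 := by
      field_simp
    rw [h1, h2, h3]
    linarith
  obtain ⟨v₀, hv₀⟩ := many_primes ⌈128 * (α + 1) ^ 2⌉₊
  have hev := (tendsto_root (m + 1) (by omega)).eventually (hlim.eventually_le_const hlt)
  filter_upwards [hev, (tendsto_root (m + 1) (by omega)).eventually_ge_atTop 1,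
    (tendsto_root (m + 1) (by omega)).eventually_ge_atTop ((L₀ : ℝ) / α),
    (tendsto_root (m + 1) (by omega)).eventually_ge_atTop ((v₀ : ℝ) * (α + 1))] with L hF h1 h2 h4
  obtain ⟨s, hs⟩ : ∃ s, s = (L : ℝ) ^ ((1 : ℝ) / ((m + 1 : ℕ) : ℝ)) := ⟨_, rfl⟩
  rw [← hs] at hF h1 h2 h4 ⊢
  have hsL : s ^ m * s = L := by rw [← pow_succ, hs, root_pow (m + 1) L (by omega)]
  have hs0 : 0 < s := by linarith
  obtain ⟨D, hD⟩ : ∃ D, D = ⌈α * s⌉₊ := ⟨_, rfl⟩
  have hD1 : α * s ≤ D := hD ▸ Nat.le_ceil _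
  have hD2 : (D : ℝ) ≤ α * s + 1 := hD ▸ (Nat.ceil_lt_add_one (by positivity)).le
  have hDpos : 0 < D := hD ▸ Nat.ceil_pos.2 (by positivity)
  obtain ⟨v, hv⟩ : ∃ v, v = L / D + 7 := ⟨_, rfl⟩
  have hvD : L ≤ (v - 6) * D := by
    have h5 := Nat.lt_mul_div_succ L hDpos
    rw [hv, Nat.add_sub_assoc (show 6 ≤ 7 by norm_num), mul_comm]
    exact h5.le
  have hvR : (v : ℝ) ≤ s ^ m / α + 7 := by
    have hdiv : ((L / D : ℕ) : ℝ) ≤ s ^ m / α := by
      refine (Nat.cast_div_le).trans ?_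
      rw [div_le_div_iff₀ (by exact_mod_cast hDpos) hαpos, ← hsL]
      calc s ^ m * s * α = s ^ m * (α * s) := by ring
        _ ≤ s ^ m * D := mul_le_mul_of_nonneg_left hD1 (by positivity)
    rw [hv]; push_cast; linarith
  have hvlow : s / (α + 1) ≤ (v : ℝ) := by
    have h5 : (L : ℝ) ≤ v * D := by
      have : L ≤ v * D := hvD.trans (Nat.mul_le_mul_right _ (Nat.sub_le _ _))
      exact_mod_cast this
    rw [div_le_iff₀ (by linarith)]
    have h6 : (v : ℝ) * D ≤ v * ((α + 1) * s) :=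
      mul_le_mul_of_nonneg_left (by linarith) (Nat.cast_nonneg v)
    refine le_of_mul_le_mul_right ?_ hs0
    have h7 : s * s ≤ s ^ m * s :=
      mul_le_mul_of_nonneg_right (le_self_pow₀ h1 hm0) hs0.le
    linarith
  have hvv : v₀ ≤ v := by
    have : (v₀ : ℝ) ≤ s / (α + 1) := by rw [le_div_iff₀ (by linarith)]; linarith
    exact_mod_cast this.trans hvlow
  have hDprimes : 128 * D ≤ ((Ioc (2 ^ (v - 6)) (2 ^ v)).filter Nat.Prime).card := by
    refine le_trans ?_ (hv₀ v hvv)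
    have h5 : (128 : ℝ) * D ≤ (⌈128 * (α + 1) ^ 2⌉₊ : ℝ) * v := by
      calc (128 : ℝ) * D ≤ 128 * ((α + 1) * s) := by linarith
        _ = 128 * (α + 1) ^ 2 * (s / (α + 1)) := by field_simp
        _ ≤ (⌈128 * (α + 1) ^ 2⌉₊ : ℝ) * v :=
          mul_le_mul (Nat.le_ceil _) hvlow (by positivity) (Nat.cast_nonneg _)
    exact_mod_cast h5
  have hsmallD : 2 * D ≤ 2 ^ (v - 6) := by
    have h5 := hDprimes.trans (card_filter_le _ _)
    rw [Nat.card_Ioc] at h5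
    have hv7 : 7 ≤ v := hv ▸ Nat.le_add_left _ _
    have h6 : 2 ^ v = 2 ^ (v - 6) * 64 := by
      rw [show (64 : ℕ) = 2 ^ 6 by norm_num, ← pow_add, show v - 6 + 6 = v by omega]
    omega
  obtain ⟨P, hPsub, hPcard⟩ := exists_subset_card_eq (le_trans (Nat.le_mul_of_pos_left D (by norm_num)) hDprimes)
  obtain ⟨q, hq⟩ : ∃ q : Fin D ↪o ℕ, q = P.orderEmbOfFin hPcard := ⟨_, rfl⟩
  have hmem : ∀ i, (2 ^ (v - 6) < q i ∧ q i ≤ 2 ^ v) ∧ (q i).Prime := by
    intro i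
    have h5 := hPsub (hq ▸ orderEmbOfFin_mem P hPcard i)
    simpa [mem_filter, mem_Ioc] using h5
  have hodd : ∀ i, q i ≠ 2 := by
    intro i h5
    have h6 := (hmem i).1.1
    rw [h5] at h6
    omega
  obtain ⟨L', hL'⟩ : ∃ L', L' = 2 * v + D := ⟨_, rfl⟩
  have hL'0 : L₀ ≤ L' := by
    rw [div_le_iff₀ hαpos] at h2
    have h6 : (L₀ : ℝ) ≤ (D : ℝ) := by linarith
    have h7 : L₀ ≤ D := by exact_mod_cast h6
    omega
  obtain ⟨B, hBsub, hBav, hBcard⟩ := hL₀ L' hL'0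
  obtain ⟨A, hAsub, hAav, hAcard⟩ := exists_top k D (2 ^ v) L' hk (fun i => q i) q.injective
    (fun i => (hmem i).2) hodd (fun i => (hmem i).1.2) B hBsub hBav (by
      rw [hL', pow_add, ← pow_mul, mul_comm v 2, mul_comm D]
      exact Nat.mul_le_mul_left _ Nat.lt_two_pow_self.le)
  obtain ⟨A', hA'sub, hA'av, hA'card⟩ :=
    exists_translate k 1 _ (2 ^ L) (Nat.two_pow_pos L) A hAsub hAav
  refine ⟨A', hA'sub, hA'av, ?_⟩
  have hV : 2 ^ L ≤ ∏ i, q i := by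
    refine le_trans ?_ (Finset.pow_card_le_prod univ (fun i => q i) (2 ^ (v - 6))
      fun i _ => (hmem i).1.1.le)
    rw [card_univ, Fintype.card_fin, ← pow_mul]
    exact Nat.pow_le_pow_right (by norm_num) hvD
  have hwin : (7 / 12 : ℝ) ^ D * (∏ i, (q i : ℝ)) * (1 / 2) ≤ ∏ i, ((win (q i)).card : ℝ) := by
    have hDR : (0 : ℝ) < D := by exact_mod_cast hDpos
    have hb : (1 / 2 : ℝ) ≤ (1 - 1 / (2 * D)) ^ D := by
      have h5 := one_add_mul_le_pow (a := -(1 / (2 * (D : ℝ)))) (by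
        have : 1 / (2 * (D : ℝ)) ≤ 1 := by
          rw [div_le_one (by positivity)]
          have : (1 : ℝ) ≤ D := by exact_mod_cast hDpos
          linarith
        linarith) D
      have e : 1 + (D : ℝ) * -(1 / (2 * (D : ℝ))) = 1 / 2 := by field_simp; ring
      rw [e, ← sub_eq_add_neg] at h5
      exact h5
    have hone : ∀ i, (7 / 12 : ℝ) * (q i) * (1 - 1 / (2 * D)) ≤ ((win (q i)).card : ℝ) := by
      intro i
      have h5 : (7 : ℝ) * (q i) ≤ 12 * ((win (q i)).card : ℝ) + 6 := by exact_mod_cast card_win (q i)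
      have h6 : 2 * (D : ℝ) ≤ q i := by exact_mod_cast hsmallD.trans (hmem i).1.1.le
      have h7 : 1 ≤ (q i : ℝ) * (1 / (2 * D)) := by
        rw [mul_one_div, le_div_iff₀ (by positivity)]
        linarith
      linarith
    have hD1' : 0 ≤ 1 - 1 / (2 * (D : ℝ)) := by
      have : (1 : ℝ) ≤ D := by exact_mod_cast hDpos
      rw [sub_nonneg, div_le_one (by positivity)]
      linarith
    calc (7 / 12 : ℝ) ^ D * (∏ i, (q i : ℝ)) * (1 / 2)
        ≤ (7 / 12 : ℝ) ^ D * (∏ i, (q i : ℝ)) * (1 - 1 / (2 * D)) ^ D :=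
          mul_le_mul_of_nonneg_left hb (by positivity)
      _ = ∏ i, ((7 / 12 : ℝ) * (q i) * (1 - 1 / (2 * D))) := by
          rw [prod_mul_distrib, prod_mul_distrib, prod_const, prod_const, card_univ, Fintype.card_fin]
      _ ≤ ∏ i, ((win (q i)).card : ℝ) :=
          prod_le_prod (fun i _ => by positivity) (fun i _ => hone i)
  have hL'le : (L' : ℝ) ≤ (2 / α + (α + 15) * s⁻¹) * s ^ m := by
    have hsm : (α + 15) * s ≤ (α + 15) * s⁻¹ * s ^ m := by
      have h6 : s ^ 2 ≤ s ^ m := pow_le_pow_right₀ h1 hm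
      calc (α + 15) * s = (α + 15) * s⁻¹ * s ^ 2 := by field_simp
        _ ≤ _ := mul_le_mul_of_nonneg_left h6 (by positivity)
    rw [hL']
    push_cast
    rw [add_mul, div_mul_eq_mul_div]
    have : 2 * (s ^ m / α) = 2 * s ^ m / α := by ring
    linarith
  have hroot' : (L' : ℝ) ^ ((1 : ℝ) / m) ≤ (2 / α + (α + 15) * s⁻¹) ^ ((1 : ℝ) / m) * s := by
    refine (rpow_le_rpow (Nat.cast_nonneg _) hL'le (by positivity)).trans (le_of_eq ?_)
    rw [mul_rpow (by positivity) (by positivity), one_div, Real.pow_rpow_inv_natCast hs0.le hm0]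
  obtain ⟨Z, hZ⟩ : ∃ Z, Z = C' * (L' : ℝ) ^ ((1 : ℝ) / m) := ⟨_, rfl⟩
  rw [← hZ] at hBcard
  have hE : c * D + 3 + Z ≤ C * s := by
    have e1 : c * D ≤ c * (α * s + 1) := mul_le_mul_of_nonneg_left hD2 hcpos.le
    have e2 := mul_le_mul_of_nonneg_left hroot' hC'pos.le
    have e3 := mul_le_mul_of_nonneg_right hF hs0.le
    rw [add_mul, add_mul, mul_assoc (c + 3), inv_mul_cancel₀ hs0.ne', mul_one] at e3
    linarith
  rw [rpow_neg (by norm_num), ← div_eq_mul_inv,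
    div_le_iff₀ (rpow_pos_of_pos (by norm_num) _)] at hBcard ⊢
  obtain ⟨V, hVd⟩ : ∃ V : ℝ, V = ∏ i, (q i : ℝ) := ⟨_, rfl⟩
  rw [← hVd] at hwin
  have hVR : (2 : ℝ) ^ L ≤ V := by rw [hVd]; exact_mod_cast hV
  have hV0 : 0 < V := lt_of_lt_of_le (by positivity) hVR
  have h5 : (∏ i, ((win (q i)).card : ℝ)) * B.card ≤ 2 * 2 ^ L' * A.card := by exact_mod_cast hAcard
  have h6 : (2 : ℝ) ^ L * A.card ≤ (V + 2 ^ L) * A'.card := by rw [hVd]; exact_mod_cast hA'card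
  obtain ⟨W, hW⟩ : ∃ W : ℝ, W = 2 ^ Z := ⟨_, rfl⟩
  rw [← hW] at hBcard
  have hW0 : 0 < W := hW ▸ rpow_pos_of_pos (by norm_num) _
  have h7 : (7 / 12 : ℝ) ^ D * V * (1 / 2) * (2 : ℝ) ^ L' ≤ 2 * A.card * W * (2 : ℝ) ^ L' := by
    calc (7 / 12 : ℝ) ^ D * V * (1 / 2) * (2 : ℝ) ^ L'
        ≤ (∏ i, ((win (q i)).card : ℝ)) * (B.card * W) :=
          mul_le_mul hwin hBcard (by positivity) (prod_nonneg fun i _ => Nat.cast_nonneg _)
      _ = (∏ i, ((win (q i)).card : ℝ)) * B.card * W := by ring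
      _ ≤ 2 * 2 ^ L' * A.card * W := mul_le_mul_of_nonneg_right h5 hW0.le
      _ = 2 * A.card * W * (2 : ℝ) ^ L' := by ring
  have h8 := le_of_mul_le_mul_right h7 (by positivity)
  have h9 : (2 : ℝ) ^ L * V ≤ A'.card * (4 * (12 / 7) ^ D * W * (2 * V)) := by
    have hpw : (7 / 12 : ℝ) ^ D * (12 / 7) ^ D = 1 := by rw [← mul_pow]; norm_num
    calc (2 : ℝ) ^ L * V = (2 : ℝ) ^ L * ((7 / 12 : ℝ) ^ D * V * (1 / 2)) * (2 * (12 / 7) ^ D) := by
          linear_combination (-((2 : ℝ) ^ L * V)) * hpw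
      _ ≤ (2 : ℝ) ^ L * (2 * A.card * W) * (2 * (12 / 7) ^ D) :=
          mul_le_mul_of_nonneg_right (mul_le_mul_of_nonneg_left h8 (by positivity)) (by positivity)
      _ = ((2 : ℝ) ^ L * A.card) * (4 * (12 / 7) ^ D * W) := by ring
      _ ≤ (2 * V * A'.card) * (4 * (12 / 7) ^ D * W) := by
          refine mul_le_mul_of_nonneg_right (h6.trans ?_) (by positivity)
          exact mul_le_mul_of_nonneg_right (by linarith) (Nat.cast_nonneg _)
      _ = A'.card * (4 * (12 / 7) ^ D * W * (2 * V)) := by ring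
  refine le_of_mul_le_mul_right ?_ hV0
  refine h9.trans ?_
  rw [mul_assoc (A'.card : ℝ) ((2 : ℝ) ^ (C * s)) V]
  refine mul_le_mul_of_nonneg_left ?_ (Nat.cast_nonneg _)
  have h10 : 4 * (12 / 7 : ℝ) ^ D * W * 2 ≤ (2 : ℝ) ^ (C * s) := by
    refine le_trans (le_of_eq ?_) (rpow_le_rpow_of_exponent_le (by norm_num) hE)
    rw [rpow_add (by norm_num), rpow_add (by norm_num), rpow_mul (by norm_num), h2c, rpow_natCast, hW]
    norm_num
    ring
  calc 4 * (12 / 7 : ℝ) ^ D * W * (2 * V) = 4 * (12 / 7 : ℝ) ^ D * W * 2 * V := by ring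
    _ ≤ (2 : ℝ) ^ (C * s) * V := mul_le_mul_of_nonneg_right h10 hV0.le

end Vale.Agent.P057
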