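import Vale.Agent.P057.Diff

/-!
The innermost set: residues in windows `[0, m / b)` on a sphere, glued by CRT.
-/

namespace Vale.Agent.P057

open Finset Polynomial fwdDiff

/-- Every `k`-term sequence in `B` of polynomial degree at most `d` is constant. -/
def Avoid (k d : ℕ) (B : Finset ℕ) : Prop :=
  ∀ v : ℕ → ℕ, (∀ j < k, v j ∈ B) → ∀ p : ℚ[X], p.natDegree ≤ d →
    (∀ j < k, p.eval (j : ℚ) = (v j : ℚ)) → ∀ j < k, v j = v 0

/-- If `G(j) + (-1)^j H(j)` vanishes at enough integers, then `G = 0`. -/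
theorem alt_elim (D : ℕ) : ∀ t k : ℕ, ∀ G H : ℚ[X], G.natDegree ≤ D → H.degree < (t : WithBot ℕ) →
    D + t < k → (∀ j < k, G.eval (j : ℚ) + (-1) ^ j * H.eval (j : ℚ) = 0) → G = 0 := by
  intro t
  induction t with
  | zero =>
    intro k G H hG hH hk h
    have hH0 : H = 0 := by
      by_contra hne
      rw [degree_eq_natDegree hne] at hH
      simp at hH
    apply Polynomial.eq_zero_of_natDegree_lt_card_of_eval_eq_zero G (f := fun j : Fin k => ((j : ℕ) : ℚ))
    · intro a b hab
      exact Fin.ext (Nat.cast_injective hab)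
    · intro j
      have := h j j.2
      simpa [hH0] using this
    · simp; omega
  | succ t ih =>
    intro k G H hG hH hk h
    have hG' : taylor 1 G + G = 0 := by
      refine ih (k - 1) _ (H - taylor 1 H) ?_ ?_ (by omega) ?_
      · refine (natDegree_add_le _ _).trans ?_
        rw [natDegree_taylor]
        omega
      · rcases eq_or_ne H 0 with h0 | h0
        · subst h0
          simp
        · have h1 : (H - taylor 1 H).degree < H.degree :=
            degree_sub_lt_left (degree_taylor H 1).symm h0 (leadingCoeff_taylor 1 H).symm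
          rw [degree_eq_natDegree h0] at h1 hH
          refine lt_of_lt_of_le h1 ?_
          have := (Nat.cast_lt (α := WithBot ℕ)).1 hH
          exact_mod_cast Nat.le_of_lt_succ this
      · intro j hj
        have h1 := h j (by omega)
        have h2 := h (j + 1) (by omega)
        push_cast at h2
        simp only [eval_add, eval_sub, taylor_eval]
        rw [pow_succ] at h2
        linear_combination h1 + h2
    by_contra hne
    have h2 := congrArg (fun P => Polynomial.coeff P G.natDegree) hG'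
    simp only [coeff_add, coeff_taylor_natDegree, coeff_zero, coeff_natDegree] at h2
    exact hne (leadingCoeff_eq_zero.1 (by linarith))

/-- A sum of squares of polynomials is constant only if all of them are constant. -/
theorem const_of_sum_sq {ι : Type*} [Fintype ι] (P : ι → ℚ[X]) (r : ℚ)
    (h : ∑ i, P i * P i = Polynomial.C r) (i : ι) : (P i).natDegree = 0 := by
  obtain ⟨D, hD⟩ : ∃ D, D = univ.sup (fun i => (P i).natDegree) := ⟨_, rfl⟩
  have hle : ∀ i, (P i).natDegree ≤ D := fun i => hD ▸ le_sup (f := fun i => (P i).natDegree) (mem_univ i)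
  by_contra hne
  have hpos : 0 < D := lt_of_lt_of_le (Nat.pos_of_ne_zero hne) (hle i)
  obtain ⟨i₀, -, hi₀⟩ := exists_mem_eq_sup univ ⟨i, mem_univ i⟩ (fun i => (P i).natDegree)
  have h2 := congrArg (fun Q => Polynomial.coeff Q (D + D)) h
  simp only [finsetSum_coeff] at h2
  rw [sum_congr rfl (fun i _ => coeff_mul_add_eq_of_natDegree_le (hle i) (hle i)),
    coeff_C_of_ne_zero (by omega)] at h2
  have h3 := (sum_eq_zero_iff_of_nonneg (fun i _ => mul_self_nonneg ((P i).coeff D))).1 h2 i₀ (mem_univ _)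
  have h4 : (P i₀).coeff D = 0 := mul_self_eq_zero.1 h3
  have h5 : (P i₀).natDegree = D := by rw [hD, hi₀]
  rw [← h5, coeff_natDegree, leadingCoeff_eq_zero] at h4
  rw [h4, natDegree_zero] at h5
  omega

/-- The windowed residue vectors with constant sum of squares. -/
theorem base_core {ι : Type*} [Fintype ι] (d k : ℕ) (hk : 3 * d + 2 ≤ k)
    (y : ι → ℕ → ℤ) (m : ι → ℕ) (H : ι → ℤ) (hp : ∀ i, (m i).Prime) (hodd : ∀ i, m i ≠ 2)
    (hy : ∀ i, ∀ j < k, 0 ≤ y i j ∧ y i j ≤ H i)
    (hH : ∀ i, ((d + 1).choose ((d + 1) / 2) : ℤ) * H i < m i)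
    (hdvd : ∀ i, ∀ j, j + d + 1 < k → (m i : ℤ) ∣ (fwdDiff 1)^[d + 1] (y i) j)
    (r : ℤ) (hr : ∀ j < k, ∑ i, y i j * y i j = r) :
    ∀ i, ∀ j < k, y i j = y i 0 := by
  have hw : ∀ i, ∀ j, j + d + 1 < k →
      (fwdDiff 1)^[d + 1] (y i) j = (-1) ^ j * (fwdDiff 1)^[d + 1] (y i) 0 := by
    intro i j
    induction j with
    | zero => intro _; simp
    | succ j ih =>
      intro hj
      have h1 := hdvd i j (by omega)
      have h2 := hdvd i (j + 1) hj
      have h3 := abs_diff_add_le d j (y i) (H i) (fun l hl => hy i (j + l) (by omega))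
      have h4 := Int.eq_zero_of_abs_lt_dvd (dvd_add h1 h2) (lt_of_le_of_lt h3 (hH i))
      have h5 := ih (by omega)
      rw [pow_succ]
      linarith
  obtain ⟨e, he⟩ : ∃ e : ι → ℚ,
      e = fun i => (((fwdDiff 1)^[d + 1] (y i) 0 : ℤ) : ℚ) / (-2) ^ (d + 1) := ⟨_, rfl⟩
  have hP : ∀ i, ∃ p : ℚ[X], p.natDegree ≤ d ∧
      ∀ j < k, p.eval (j : ℚ) = (y i j : ℚ) - e i * (-1) ^ j := by
    intro i
    refine poly_of_vanish d k _ fun j hj => ?_
    have h0 : (fun l => (y i l : ℚ) - e i * (-1) ^ l)
        = (fun l => (y i l : ℚ)) + (fun l => -(e i) * (-1) ^ l) := by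
      funext l; simp [sub_eq_add_neg]
    rw [h0, fwdDiff_iter_add, Pi.add_apply, fwdDiff_cast, fwdDiff_alt, hw i j hj, he]
    push_cast
    field_simp
    ring
  choose P hPd hPe using hP
  have hG : ∑ i, (P i * P i + Polynomial.C (e i * e i)) - Polynomial.C (r : ℚ) = 0 := by
    refine alt_elim (2 * d) (d + 1) k _ (∑ i, Polynomial.C (2 * e i) * P i) ?_ ?_ (by omega) ?_
    · refine (natDegree_sub_le _ _).trans (max_le ?_ (by simp))
      refine natDegree_sum_le_of_forall_le _ _ fun i _ => ?_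
      refine (natDegree_add_le _ _).trans (max_le ?_ ((natDegree_C _).le.trans (Nat.zero_le _)))
      refine natDegree_mul_le.trans ?_
      have := hPd i
      omega
    · rcases eq_or_ne (∑ i, Polynomial.C (2 * e i) * P i) 0 with h0 | h0
      · rw [h0, degree_zero]
        exact WithBot.bot_lt_coe _
      · rw [degree_eq_natDegree h0, Nat.cast_lt]
        refine Nat.lt_succ_of_le (natDegree_sum_le_of_forall_le _ _ fun i _ => ?_)
        exact (natDegree_C_mul_le _ _).trans (hPd i)
    · intro j hj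
      have h1 := hr j hj
      have h2 : ∀ i, ((y i j * y i j : ℤ) : ℚ) =
          (P i * P i + Polynomial.C (e i * e i)).eval (j : ℚ)
            + (-1) ^ j * (Polynomial.C (2 * e i) * P i).eval (j : ℚ) := by
        intro i
        have := hPe i j hj
        have hs : ((-1 : ℚ) ^ j) * (-1) ^ j = 1 := by rw [← mul_pow]; simp
        push_cast
        simp only [eval_add, eval_mul, eval_C]
        rw [this]
        linear_combination (e i * e i) * hs
      have h3 : (r : ℚ) = ∑ i, ((P i * P i + Polynomial.C (e i * e i)).eval (j : ℚ)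
            + (-1) ^ j * (Polynomial.C (2 * e i) * P i).eval (j : ℚ)) := by
        rw [← h1, Int.cast_sum]
        exact sum_congr rfl fun i _ => h2 i
      rw [sum_add_distrib, ← mul_sum] at h3
      simp only [eval_sub, eval_finsetSum, eval_C]
      linarith
  have hconst : ∀ i, (P i).natDegree = 0 := by
    refine const_of_sum_sq P ((r : ℚ) - ∑ i, e i * e i) ?_
    rw [sum_add_distrib] at hG
    rw [map_sub, map_sum]
    linear_combination hG
  intro i
  have hval : ∀ j < k, (y i j : ℚ) = (P i).coeff 0 + e i * (-1) ^ j := by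
    intro j hj
    have h1 := hPe i j hj
    rw [eq_C_of_natDegree_eq_zero (hconst i), eval_C] at h1
    linarith
  have hd1 : ((y i 1 : ℤ) : ℚ) - y i 0 = -2 * e i := by
    rw [hval 1 (by omega), hval 0 (by omega)]
    ring
  have hw0 : (fwdDiff 1)^[d + 1] (y i) 0 = (y i 1 - y i 0) * (-2) ^ d := by
    have : (((fwdDiff 1)^[d + 1] (y i) 0 : ℤ) : ℚ) = (((y i 1 - y i 0) * (-2) ^ d : ℤ) : ℚ) := by
      push_cast
      rw [hd1, he, pow_succ]
      field_simp
    exact_mod_cast this
  have hdiv := hdvd i 0 (by omega)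
  rw [hw0] at hdiv
  have hpI : Prime (m i : ℤ) := Nat.prime_iff_prime_int.1 (hp i)
  have hdel : y i 1 - y i 0 = 0 := by
    refine Int.eq_zero_of_abs_lt_dvd ((hpI.dvd_or_dvd hdiv).resolve_right fun h => ?_) ?_
    · have h2 : (m i : ℤ) ∣ 2 := dvd_neg.1 (hpI.dvd_of_dvd_pow h)
      have h3 : m i ∣ 2 := by exact_mod_cast h2
      exact hodd i ((Nat.prime_dvd_prime_iff_eq (hp i) Nat.prime_two).1 h3)
    · have h0 := hy i 0 (by omega)
      have h1 := hy i 1 (by omega)
      have hb : (1 : ℤ) ≤ ((d + 1).choose ((d + 1) / 2) : ℤ) := by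
        exact_mod_cast Nat.choose_pos (Nat.div_le_self _ _)
      have hHle : H i ≤ ((d + 1).choose ((d + 1) / 2) : ℤ) * H i :=
        le_mul_of_one_le_left (h0.1.trans h0.2) hb
      have := hH i
      rw [abs_lt]
      constructor <;> linarith
  have he0 : e i = 0 := by
    have : ((y i 1 : ℤ) : ℚ) - y i 0 = 0 := by
      rw [← Int.cast_sub, hdel, Int.cast_zero]
    linarith
  intro j hj
  have : ((y i j : ℤ) : ℚ) = y i 0 := by
    rw [hval j hj, hval 0 (by omega), he0]
    ring
  exact_mod_cast this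

/-- With windows `[0, m / b)` every `k`-term residue sequence on a sphere is constant. -/
def Core (k d b : ℕ) : Prop :=
  ∀ (D : ℕ) (y : Fin D → ℕ → ℤ) (m : Fin D → ℕ) (H : Fin D → ℤ),
    (∀ i, (m i).Prime) → (∀ i, m i ≠ 2) → (∀ i, ∀ j < k, 0 ≤ y i j ∧ y i j ≤ H i) →
    (∀ i, (b : ℤ) * H i < m i) →
    (∀ i, ∀ j, j + d + 1 < k → (m i : ℤ) ∣ (fwdDiff 1)^[d + 1] (y i) j) →
    ∀ r : ℤ, (∀ j < k, ∑ i, y i j * y i j = r) → ∀ i, ∀ j < k, y i j = y i 0

theorem core_wide (k d : ℕ) (hk : 3 * d + 2 ≤ k) : Core k d ((d + 1).choose ((d + 1) / 2)) :=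
  fun _ y m H hp hodd hy hH hdvd r hr => base_core d k hk y m H hp hodd hy hH hdvd r hr

theorem core_narrow (k d : ℕ) (hk : 2 * d + 1 ≤ k) : Core k d (2 ^ d) := by
  intro D y m H _ _ hy hH hdvd r hr
  have hz : ∀ i, ∀ j, j + d + 1 < k → (fwdDiff 1)^[d + 1] (y i) j = 0 := by
    intro i j hj
    refine Int.eq_zero_of_abs_lt_dvd (hdvd i j hj) (lt_of_le_of_lt
      (abs_diff_le d j (y i) (H i) fun l hl => hy i (j + l) (by omega)) ?_)
    have := hH i
    push_cast at this
    exact this
  have hP : ∀ i, ∃ p : ℚ[X], p.natDegree ≤ d ∧ ∀ j < k, p.eval (j : ℚ) = (y i j : ℚ) := by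
    intro i
    refine poly_of_vanish d k _ fun j hj => ?_
    rw [fwdDiff_cast, hz i j hj, Int.cast_zero]
  choose P hPd hPe using hP
  have hG : ∑ i, P i * P i - Polynomial.C (r : ℚ) = 0 := by
    refine alt_elim (2 * d) 0 k _ 0 ?_ (by rw [degree_zero]; exact WithBot.bot_lt_coe _) (by omega)
      fun j hj => ?_
    · refine (natDegree_sub_le _ _).trans (max_le ?_ ((natDegree_C _).le.trans (Nat.zero_le _)))
      refine natDegree_sum_le_of_forall_le _ _ fun i _ => natDegree_mul_le.trans ?_
      have := hPd i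
      omega
    · rw [eval_sub, eval_C, eval_zero, mul_zero, add_zero, sub_eq_zero, eval_finsetSum, ← hr j hj,
        Int.cast_sum]
      refine sum_congr rfl fun i _ => ?_
      rw [eval_mul, hPe i j hj]
      push_cast
      rfl
  have hconst := const_of_sum_sq P (r : ℚ) (sub_eq_zero.1 hG)
  intro i j hj
  have h1 := hPe i j hj
  have h2 := hPe i 0 (by omega)
  rw [eq_C_of_natDegree_eq_zero (hconst i), eval_C] at h1 h2
  exact_mod_cast h1.symm.trans h2

/-- The innermost progression-free set modulo a product of primes. -/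
theorem exists_base (d k D Mx b : ℕ) (hbpos : 0 < b) (hcore : Core k d b) (m : Fin D → ℕ)
    (hinj : Function.Injective m) (hp : ∀ i, (m i).Prime) (hodd : ∀ i, m i ≠ 2)
    (hMx : ∀ i, m i ≤ Mx) :
    ∃ B : Finset ℕ, B ⊆ range (∏ i, m i) ∧ Avoid k d B ∧
      ∏ i, m i ≤ b ^ D * (D * Mx ^ 2 + 1) * B.card := by
  obtain ⟨U, hU⟩ : ∃ U, U = (range (∏ i, m i)).filter (fun x => ∀ i, b * (x % m i) < m i) :=
    ⟨_, rfl⟩
  have hpp : Set.Pairwise (↑(univ : Finset (Fin D))) (Function.onFun Nat.Coprime m) := fun i _ j _ hij =>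
    (Nat.coprime_primes (hp i) (hp j)).2 (fun h => hij (hinj h))
  have hne : ∀ i ∈ (univ : Finset (Fin D)), m i ≠ 0 := fun i _ => (hp i).ne_zero
  have hcard : ∏ i, m i ≤ b ^ D * U.card := by
    obtain ⟨S, hS⟩ : ∃ S, S = Fintype.piFinset (fun i => range ((m i + b - 1) / b)) := ⟨_, rfl⟩
    have h1 : ∏ i, m i ≤ b ^ D * S.card := by
      rw [hS, Fintype.card_piFinset]
      simp only [card_range]
      have hbD : b ^ D = ∏ _i : Fin D, b := by rw [prod_const, card_univ, Fintype.card_fin]
      rw [hbD, ← prod_mul_distrib]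
      refine Finset.prod_le_prod' fun i _ => ?_
      have := Nat.div_add_mod (m i + b - 1) b
      have := Nat.mod_lt (m i + b - 1) hbpos
      omega
    refine h1.trans (Nat.mul_le_mul_left _ ?_)
    have hlt : ∀ t ∈ S, ∀ i, b * t i < m i := by
      intro t ht i
      rw [hS, Fintype.mem_piFinset] at ht
      have h2 := mem_range.1 (ht i)
      have h3 : b * (t i + 1) ≤ b * ((m i + b - 1) / b) := Nat.mul_le_mul_left _ h2
      have := Nat.mul_div_le (m i + b - 1) b
      rw [mul_add, mul_one] at h3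
      omega
    have hmod : ∀ t ∈ S, ∀ i,
        (Nat.chineseRemainderOfFinset t m univ hne hpp : ℕ) % m i = t i := by
      intro t ht i
      have h2 := (Nat.chineseRemainderOfFinset t m univ hne hpp).2 i (mem_univ i)
      refine Eq.trans h2 (Nat.mod_eq_of_lt (lt_of_le_of_lt ?_ (hlt t ht i)))
      exact Nat.le_mul_of_pos_left _ hbpos
    refine card_le_card_of_injOn (fun t => (Nat.chineseRemainderOfFinset t m univ hne hpp : ℕ)) ?_ ?_
    · intro t ht
      simp only [hU, coe_filter, mem_range, Set.mem_setOf_eq]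
      refine ⟨Nat.chineseRemainderOfFinset_lt_prod _ _ hne hpp, fun i => ?_⟩
      rw [hmod t ht i]
      exact hlt t ht i
    · intro t ht u hu htu
      funext i
      rw [← hmod t ht i, ← hmod u hu i]
      simp only at htu
      rw [htu]
  obtain ⟨r, -, hr⟩ : ∃ r ∈ range (D * Mx ^ 2 + 1), ∀ r' ∈ range (D * Mx ^ 2 + 1),
      (U.filter (fun x => ∑ i, (x % m i) ^ 2 = r')).card
        ≤ (U.filter (fun x => ∑ i, (x % m i) ^ 2 = r)).card :=
    exists_max_image _ _ nonempty_range_add_one
  refine ⟨U.filter (fun x => ∑ i, (x % m i) ^ 2 = r), ?_, ?_, ?_⟩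
  · intro x hx
    rw [hU] at hx
    exact (mem_filter.1 (mem_filter.1 hx).1).1
  · intro v hv p hpd hpv j hj
    simp only [hU, mem_filter, mem_range] at hv
    obtain ⟨y, hy⟩ : ∃ y : Fin D → ℕ → ℤ, y = fun i j => ((v j % m i : ℕ) : ℤ) := ⟨_, rfl⟩
    have hvz : ∀ l, l + d + 1 < k → (fwdDiff 1)^[d + 1] (fun j => (v j : ℤ)) l = 0 := by
      intro l hl
      have h := vanish_of_poly d k (fun j => ((v j : ℤ) : ℚ)) p hpd
        (fun j hj => by rw [hpv j hj]; simp) l hl
      rw [fwdDiff_cast] at h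
      exact_mod_cast h
    have hconst := hcore D y m (fun i => (((m i - 1) / b : ℕ) : ℤ)) hp hodd ?_ ?_ ?_ r ?_
    · have hmodeq : ∀ i, (m i : ℤ) ∣ (v j : ℤ) - v 0 := by
        intro i
        have h := hconst i j hj
        simp only [hy, Int.natCast_inj] at h
        exact Nat.modEq_iff_dvd.1 h.symm
      have hdvd : (∏ i, (m i : ℤ)) ∣ (v j : ℤ) - v 0 := by
        refine Fintype.prod_dvd_of_coprime (fun i i' hii' => ?_) hmodeq
        exact Nat.isCoprime_iff_coprime.2 (hpp (mem_univ i) (mem_univ i') hii')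
      have h1 := (hv j hj).1.1
      have h2 := (hv 0 (by omega)).1.1
      have h0 := Int.eq_zero_of_abs_lt_dvd hdvd (by
        rw [← Nat.cast_prod, abs_lt]
        constructor <;> omega)
      omega
    · intro i l hl
      simp only [hy]
      refine ⟨Int.natCast_nonneg _, ?_⟩
      have := (hv l hl).1.2 i
      exact_mod_cast (Nat.le_div_iff_mul_le hbpos).2 (by rw [mul_comm]; omega)
    · intro i
      have h1 := Nat.mul_div_le (m i - 1) b
      have h2 := (hp i).pos
      have : b * ((m i - 1) / b) < m i := by omega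
      exact_mod_cast this
    · intro i l hl
      have e : y i = (fun j => (v j : ℤ)) + (-(m i : ℤ)) • (fun j => ((v j / m i : ℕ) : ℤ)) := by
        funext j
        simp only [hy, Pi.add_apply, Pi.smul_apply, smul_eq_mul]
        push_cast
        rw [Int.emod_def]
        ring
      rw [e, fwdDiff_iter_add, fwdDiff_iter_const_smul]
      simp only [Pi.add_apply, Pi.smul_apply, smul_eq_mul, hvz l hl, zero_add]
      exact Dvd.dvd.mul_right (dvd_neg.2 dvd_rfl) _
    · intro l hl
      simp only [hy]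
      rw [← (hv l hl).2]
      push_cast
      exact sum_congr rfl fun i _ => (sq _).symm
  · refine hcard.trans ?_
    rw [mul_assoc]
    refine Nat.mul_le_mul_left _ ?_
    rw [card_eq_sum_card_fiberwise (f := fun x => ∑ i, (x % m i) ^ 2) (t := range (D * Mx ^ 2 + 1))
      (s := U) ?_]
    · refine (sum_le_card_nsmul _ _ _ hr).trans ?_
      rw [card_range, smul_eq_mul]
    · intro x _
      simp only [coe_range, Set.mem_Iio]
      have : ∑ i, (x % m i) ^ 2 ≤ D * Mx ^ 2 := by
        refine (sum_le_card_nsmul univ (fun i => (x % m i) ^ 2) (Mx ^ 2) fun i _ => ?_).trans (by simp)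
        exact Nat.pow_le_pow_left ((Nat.mod_lt _ (hp i).pos).le.trans (hMx i)) 2
      omega

end Vale.Agent.P057
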