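import Mathlib

/-!
Finite difference tools for the Rankin-type construction of progression-free sets.
-/

namespace Vale.Agent.P057

open Finset Polynomial fwdDiff

/-- A sequence whose `(d+1)`-st differences vanish on a window is given there by a polynomial. -/
theorem poly_of_vanish (d k : ℕ) (v : ℕ → ℚ)
    (h : ∀ j, j + d + 1 < k → (fwdDiff 1)^[d + 1] v j = 0) :
    ∃ p : ℚ[X], p.natDegree ≤ d ∧ ∀ j < k, p.eval (j : ℚ) = v j := by
  refine ⟨∑ i ∈ range (d + 1),
    Polynomial.C ((fwdDiff 1)^[i] v 0 / (i.factorial : ℚ)) * descPochhammer ℚ i, ?_, ?_⟩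
  · refine natDegree_sum_le_of_forall_le _ _ fun i hi => ?_
    refine (natDegree_C_mul_le _ _).trans ?_
    rw [descPochhammer_natDegree]
    have := mem_range.1 hi
    omega
  · intro j hj
    have key : ∀ i, d < i → i ≤ j → (fwdDiff 1)^[i] v 0 = 0 := by
      intro i hi hij
      obtain ⟨l, rfl⟩ : ∃ l, i = l + (d + 1) := ⟨i - (d + 1), by omega⟩
      rw [Function.iterate_add_apply, fwdDiff_iter_eq_sum_shift]
      refine sum_eq_zero fun m hm => ?_
      have := mem_range.1 hm
      rw [h _ (by simp; omega), smul_zero]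
    have hs := shift_eq_sum_fwdDiff_iter 1 v j 0
    simp only [smul_eq_mul, mul_one, zero_add] at hs
    rw [hs, eval_finset_sum]
    simp only [eval_mul, eval_C, descPochhammer_eval_eq_descFactorial, nsmul_eq_mul]
    have e : ∀ i, (fwdDiff 1)^[i] v 0 / (i.factorial : ℚ) * (j.descFactorial i : ℚ)
        = (j.choose i : ℚ) * (fwdDiff 1)^[i] v 0 := by
      intro i
      rw [Nat.descFactorial_eq_factorial_mul_choose]
      push_cast
      field_simp
    simp only [e]
    rcases le_total (d + 1) (j + 1) with hle | hle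
    · refine sum_subset (range_subset_range.2 hle) fun i hi hid => ?_
      have h1 := mem_range.1 hi
      rw [mem_range] at hid
      rw [key i (by omega) (by omega), mul_zero]
    · symm
      refine sum_subset (range_subset_range.2 hle) fun i _ hid => ?_
      rw [mem_range] at hid
      rw [Nat.choose_eq_zero_of_lt (by omega)]
      simp

/-- Polynomial sequences of degree at most `d` have vanishing `(d+1)`-st differences. -/
theorem vanish_of_poly (d k : ℕ) (v : ℕ → ℚ) (p : ℚ[X]) (hp : p.natDegree ≤ d)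
    (hv : ∀ j < k, p.eval (j : ℚ) = v j) (j : ℕ) (hj : j + d + 1 < k) :
    (fwdDiff 1)^[d + 1] v j = 0 := by
  have h0 := Polynomial.fwdDiff_iter_eq_zero_of_degree_lt (P := p) (n := d + 1) (by omega)
  have h1 := congrFun h0 (j : ℚ)
  rw [fwdDiff_iter_eq_sum_shift] at h1
  rw [fwdDiff_iter_eq_sum_shift]
  refine Eq.trans (sum_congr rfl fun i hi => ?_) h1
  have := mem_range.1 hi
  congr 1
  rw [← hv _ (by simp; omega)]
  push_cast [smul_eq_mul, nsmul_eq_mul, mul_one]
  rfl

theorem fwdDiff_cast (v : ℕ → ℤ) (n j : ℕ) :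
    (fwdDiff 1)^[n] (fun i => (v i : ℚ)) j = (((fwdDiff 1)^[n] v j : ℤ) : ℚ) := by
  rw [fwdDiff_iter_eq_sum_shift, fwdDiff_iter_eq_sum_shift, Int.cast_sum]
  refine sum_congr rfl fun i _ => ?_
  simp

theorem fwdDiff_alt (e : ℚ) (n j : ℕ) :
    (fwdDiff 1)^[n] (fun i => e * (-1) ^ i) j = e * (-2) ^ n * (-1) ^ j := by
  induction n generalizing j with
  | zero => simp
  | succ n ih =>
    rw [Function.iterate_succ_apply']
    show (fwdDiff 1)^[n] _ (j + 1) - (fwdDiff 1)^[n] _ j = _
    rw [ih, ih]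
    ring

/-- The basic bound: a zero-sum combination of values in `[0, H]`. -/
theorem abs_comb_le {ι : Type*} (t : Finset ι) (s y : ι → ℤ) (H : ℤ)
    (h0 : ∑ i ∈ t, s i = 0) (hy : ∀ i ∈ t, 0 ≤ y i ∧ y i ≤ H) :
    2 * |∑ i ∈ t, s i * y i| ≤ (∑ i ∈ t, |s i|) * H := by
  have e : 2 * (∑ i ∈ t, s i * y i) = ∑ i ∈ t, s i * (2 * y i - H) := by
    simp only [mul_sub, sum_sub_distrib, ← sum_mul, h0, zero_mul, sub_zero, mul_sum]
    exact sum_congr rfl fun i _ => by ring
  have e2 : 2 * |∑ i ∈ t, s i * y i| = |2 * ∑ i ∈ t, s i * y i| := by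
    rw [abs_mul]; norm_num
  rw [e2, e, sum_mul]
  refine (abs_sum_le_sum_abs _ _).trans (sum_le_sum fun i hi => ?_)
  rw [abs_mul]
  refine mul_le_mul_of_nonneg_left ?_ (abs_nonneg _)
  rw [abs_le]
  have := hy i hi
  constructor <;> linarith

/-- Bound for a difference of order `d + 1` of values in `[0, H]`. -/
theorem abs_diff_le (d j : ℕ) (v : ℕ → ℤ) (H : ℤ)
    (hv : ∀ i ≤ d + 1, 0 ≤ v (j + i) ∧ v (j + i) ≤ H) :
    |(fwdDiff 1)^[d + 1] v j| ≤ 2 ^ d * H := by
  have hs : (fwdDiff 1)^[d + 1] v j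
      = ∑ i ∈ range (d + 2), ((-1) ^ (d + 1 - i) * ((d + 1).choose i : ℤ)) * v (j + i) := by
    rw [fwdDiff_iter_eq_sum_shift]
    simp
  have hfl : ∑ i ∈ range (d + 2), ((-1) ^ (d + 1 - i) * ((d + 1).choose i : ℤ)) = 0 := by
    have h := Int.alternating_sum_range_choose_of_ne (n := d + 1) (by omega)
    have h' := congrArg (fun x => (-1 : ℤ) ^ (d + 1) * x) h
    simp only [mul_zero, mul_sum] at h'
    rw [← h']
    refine sum_congr rfl fun i hi => ?_
    have hi' := mem_range.1 hi
    have e : ((-1 : ℤ) ^ (d + 1 - i)) = (-1) ^ (d + 1) * (-1) ^ i := by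
      rw [← pow_add, neg_one_pow_eq_pow_mod_two, neg_one_pow_eq_pow_mod_two (n := d + 1 + i)]
      congr 1
      omega
    rw [e]; ring
  have habs : ∑ i ∈ range (d + 2), |(-1) ^ (d + 1 - i) * ((d + 1).choose i : ℤ)| = 2 ^ (d + 1) := by
    simp only [abs_mul, abs_pow, abs_neg, abs_one, one_pow, one_mul, Nat.abs_cast]
    exact_mod_cast Nat.sum_range_choose (d + 1)
  have hb := abs_comb_le (range (d + 2))
    (fun i => (-1) ^ (d + 1 - i) * ((d + 1).choose i : ℤ)) (fun i => v (j + i)) H hfl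
    (fun i hi => hv i (by have := mem_range.1 hi; omega))
  beta_reduce at hb
  rw [habs, pow_succ] at hb
  rw [hs]
  linarith

theorem sum_abs_choose_sub (a : ℕ) :
    1 + ∑ i ∈ range (a + 1), |(a.choose (i + 1) : ℤ) - a.choose i| = 2 * a.choose (a / 2) := by
  have hup : ∀ i, i < a / 2 → |(a.choose (i + 1) : ℤ) - a.choose i|
      = (a.choose (i + 1) : ℤ) - a.choose i := fun i hi =>
    abs_of_nonneg (sub_nonneg.2 (by exact_mod_cast Nat.choose_le_succ_of_lt_half_left hi))
  have hdown : ∀ i, a / 2 ≤ i → i ≤ a → |(a.choose (i + 1) : ℤ) - a.choose i|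
      = (a.choose i : ℤ) - a.choose (i + 1) := by
    intro i hi hia
    rw [abs_of_nonpos, neg_sub]
    refine sub_nonpos.2 ?_
    rcases Nat.lt_or_ge i a with hlt | hge
    · have hs1 := Nat.choose_symm (n := a) (k := i) hia
      have hs2 := Nat.choose_symm (n := a) (k := i + 1) hlt
      have hr : a - (i + 1) + 1 = a - i := by omega
      rcases Nat.lt_or_ge (a - (i + 1)) (a / 2) with h1 | h1
      · have := Nat.choose_le_succ_of_lt_half_left h1
        rw [hr, hs1, hs2] at this
        exact_mod_cast this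
      · have hmid : i = a / 2 := by omega
        subst hmid
        exact_mod_cast Nat.choose_le_middle _ _
    · rw [Nat.choose_eq_zero_of_lt (show a < i + 1 by omega)]
      exact_mod_cast Nat.zero_le _
  rw [← sum_range_add_sum_Ico _ (show a / 2 ≤ a + 1 by omega)]
  rw [sum_congr rfl (fun i hi => hup i (mem_range.1 hi)),
    sum_congr rfl (fun i hi => hdown i (mem_Ico.1 hi).1 (by have := (mem_Ico.1 hi).2; omega))]
  have h1 := sum_range_sub (fun i => (a.choose i : ℤ)) (a / 2)
  have h2 := sum_range_sub' (fun i => (a.choose (a / 2 + i) : ℤ)) (a + 1 - a / 2)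
  rw [sum_Ico_eq_sum_range, h1]
  have e : ∀ i, a / 2 + i + 1 = a / 2 + (i + 1) := fun i => by omega
  simp only [e]
  rw [h2, Nat.choose_zero_right, show a / 2 + (a + 1 - a / 2) = a + 1 by omega,
    Nat.choose_eq_zero_of_lt (Nat.lt_succ_self a), Nat.add_zero]
  push_cast
  ring

/-- Two consecutive differences of order `d + 1` of values in `[0, H]` nearly cancel. -/
theorem abs_diff_add_le (d j : ℕ) (v : ℕ → ℤ) (H : ℤ)
    (hv : ∀ i ≤ d + 2, 0 ≤ v (j + i) ∧ v (j + i) ≤ H) :
    |(fwdDiff 1)^[d + 1] v j + (fwdDiff 1)^[d + 1] v (j + 1)| ≤ ((d + 1).choose ((d + 1) / 2) : ℤ) * H := by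
  obtain ⟨g, hg⟩ : ∃ g : ℕ → ℤ,
      g = fun i => (-1) ^ (d + 1 + i) * ((d + 1).choose i : ℤ) := ⟨_, rfl⟩
  obtain ⟨s, hs⟩ : ∃ s : ℕ → ℤ,
      s = fun i => if i = 0 then g 0 else g (i - 1) + g i := ⟨_, rfl⟩
  have hsign : ∀ i ≤ d + 1, (-1 : ℤ) ^ (d + 1 - i) = (-1) ^ (d + 1 + i) := fun i hi => by
    rw [neg_one_pow_eq_pow_mod_two, neg_one_pow_eq_pow_mod_two (n := d + 1 + i)]
    congr 1
    omega
  have hd : ∀ l, (fwdDiff 1)^[d + 1] v l = ∑ i ∈ range (d + 2), g i * v (l + i) := by
    intro l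
    rw [fwdDiff_iter_eq_sum_shift, hg]
    refine sum_congr rfl fun i hi => ?_
    rw [hsign i (by have := mem_range.1 hi; omega)]
    simp
  have hlast : g (d + 2) = 0 := by
    rw [hg]
    simp [Nat.choose_eq_zero_of_lt]
  have hsplit : ∀ u : ℕ → ℤ, (∑ i ∈ range (d + 2), g i * u i) + ∑ i ∈ range (d + 2), g i * u (i + 1)
      = ∑ i ∈ range (d + 3), s i * u i := by
    intro u
    have hgu : ∑ i ∈ range (d + 2), g i * u i = ∑ i ∈ range (d + 3), g i * u i := by
      rw [sum_range_succ _ (d + 2), hlast, zero_mul, add_zero]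
    rw [hgu, sum_range_succ' (fun i => g i * u i) (d + 2), sum_range_succ' (fun i => s i * u i) (d + 2)]
    have e : ∀ i, s (i + 1) = g i + g (i + 1) := fun i => by simp [hs]
    simp only [e, add_mul, sum_add_distrib]
    have e0 : s 0 = g 0 := by simp [hs]
    rw [e0]
    ring
  have hzero : ∑ i ∈ range (d + 3), s i = 0 := by
    have h := hsplit (fun _ => 1)
    simp only [mul_one] at h
    have h' := Int.alternating_sum_range_choose_of_ne (n := d + 1) (by omega)
    have h'' : ∑ i ∈ range (d + 2), g i = 0 := by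
      rw [hg]
      simp only [pow_add, mul_assoc]
      rw [← mul_sum, ← mul_sum]
      have : ∑ i ∈ range (d + 2), (-1 : ℤ) ^ i * ((d + 1).choose i : ℤ) = 0 := h'
      rw [this, mul_zero, mul_zero]
    rw [h'', add_zero] at h
    exact h.symm
  have habs : ∑ i ∈ range (d + 3), |s i| = 2 * ((d + 1).choose ((d + 1) / 2) : ℤ) := by
    rw [sum_range_succ', ← sum_abs_choose_sub (d + 1), add_comm]
    congr 1
    · simp [hs, hg, abs_mul]
    · refine sum_congr rfl fun i _ => ?_
      have e : s (i + 1) = (-1) ^ (d + 1 + i + 1) *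
          (((d + 1).choose (i + 1) : ℤ) - (d + 1).choose i) := by
        simp only [hs, hg, Nat.succ_ne_zero, if_false, Nat.add_sub_cancel]
        simp only [pow_add, pow_one]
        ring
      rw [e, abs_mul, abs_pow, abs_neg, abs_one, one_pow, one_mul]
  have hb := abs_comb_le (range (d + 3)) s (fun i => v (j + i)) H hzero
    (fun i hi => hv i (by have := mem_range.1 hi; omega))
  rw [habs] at hb
  have he : (fwdDiff 1)^[d + 1] v j + (fwdDiff 1)^[d + 1] v (j + 1) = ∑ i ∈ range (d + 3), s i * v (j + i) := by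
    rw [hd, hd, ← hsplit (fun i => v (j + i))]
    congr 1
    refine sum_congr rfl fun i _ => ?_
    rw [show j + 1 + i = j + (i + 1) by omega]
  rw [he]
  linarith

end Vale.Agent.P057
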