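import Vale.Agent.P057.Base

/-!
The digit step of the recursion, and moving a set into a shorter interval.
-/

namespace Vale.Agent.P057

open Finset Polynomial fwdDiff

/-- A vanishing combination of small digits, with an unrestricted top digit, is trivial. -/
theorem digits_zero (M : ℤ) (hM : 0 < M) : ∀ n : ℕ, ∀ c : Fin (n + 1) → ℤ,
    (∀ i : Fin n, |c i.castSucc| < M) → ∑ i : Fin (n + 1), c i * M ^ (i : ℕ) = 0 → ∀ i, c i = 0 := by
  intro n
  induction n with
  | zero =>
    intro c _ h i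
    simp at h
    exact Fin.cases h (fun j => j.elim0) i
  | succ n ih =>
    intro c hc h
    rw [Fin.sum_univ_succ] at h
    simp only [Fin.val_zero, pow_zero, mul_one, Fin.val_succ, pow_succ] at h
    have hs : ∑ i : Fin (n + 1), c i.succ * (M ^ (i : ℕ) * M)
        = M * ∑ i : Fin (n + 1), c i.succ * M ^ (i : ℕ) := by
      rw [mul_sum]; exact sum_congr rfl fun i _ => by ring
    rw [hs] at h
    have h0 : c 0 = 0 := Int.eq_zero_of_abs_lt_dvd
      ⟨-∑ i : Fin (n + 1), c i.succ * M ^ (i : ℕ), by linarith⟩ (hc 0)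
    rw [h0, zero_add, mul_eq_zero] at h
    have h1 := ih (fun i => c i.succ) (fun i => hc i.succ) (h.resolve_left hM.ne')
    intro i
    refine Fin.cases h0 h1 i

theorem digits_lt (M : ℕ) : ∀ n : ℕ, ∀ c : Fin n → ℕ,
    (∀ i, c i < M) → ∑ i : Fin n, c i * M ^ (i : ℕ) < M ^ n := by
  intro n
  induction n with
  | zero => intro c _; simp
  | succ n ih =>
    intro c hc
    rw [Fin.sum_univ_castSucc]
    simp only [Fin.val_castSucc, Fin.val_last, pow_succ]
    have h1 := ih (fun i => c i.castSucc) (fun i => hc _)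
    have h2 : (c (Fin.last n) + 1) * M ^ n ≤ M * M ^ n :=
      Nat.mul_le_mul_right _ (hc (Fin.last n))
    rw [add_mul, one_mul] at h2
    rw [mul_comm (M ^ n) M]
    omega

theorem exists_translate (k d V W : ℕ) (hW : 0 < W) (B : Finset ℕ) (hBV : B ⊆ range V)
    (hB : Avoid k d B) :
    ∃ B' : Finset ℕ, B' ⊆ range W ∧ Avoid k d B' ∧ W * B.card ≤ (V + W) * B'.card := by
  obtain ⟨q, -, hq⟩ := exists_max_image (range (V / W + 1))
    (fun q => (B.filter (fun x => x / W = q)).card) nonempty_range_add_one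
  refine ⟨(B.filter (fun x => x / W = q)).image (fun x => x % W), ?_, ?_, ?_⟩
  · intro x hx
    obtain ⟨y, -, rfl⟩ := mem_image.1 hx
    exact mem_range.2 (Nat.mod_lt _ hW)
  · intro v hv p hp hpv j hj
    have hmem : ∀ j < k, W * q + v j ∈ B := by
      intro j hj
      obtain ⟨y, hy, hyv⟩ := mem_image.1 (hv j hj)
      obtain ⟨hyB, hyq⟩ := mem_filter.1 hy
      have : W * q + v j = y := by rw [← hyv, ← hyq]; exact Nat.div_add_mod y W
      rw [this]; exact hyB
    have h := hB (fun j => W * q + v j) hmem (p + Polynomial.C ((W * q : ℕ) : ℚ))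
      ((natDegree_add_le _ _).trans (max_le hp ((natDegree_C _).le.trans (Nat.zero_le _))))
      (fun j hj => by rw [eval_add, eval_C, hpv j hj]; push_cast; ring) j hj
    beta_reduce at h
    omega
  · rw [card_image_of_injOn]
    · rw [card_eq_sum_card_fiberwise (f := fun x => x / W) (t := range (V / W + 1)) (s := B) ?_]
      · refine (Nat.mul_le_mul_left W (sum_le_card_nsmul _ _ _ hq)).trans ?_
        rw [card_range, smul_eq_mul, ← mul_assoc]
        refine Nat.mul_le_mul_right _ ?_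
        have := Nat.mul_div_le V W
        rw [mul_add, mul_one]
        omega
      · intro x hx
        simp only [coe_range, Set.mem_Iio]
        have h1 := mem_range.1 (hBV hx)
        exact Nat.lt_succ_of_le (Nat.div_le_div_right h1.le)
    · intro x hx y hy hxy
      simp only [coe_filter, Set.mem_ofPred_eq] at hx hy
      simp only at hxy
      rw [← Nat.div_add_mod x W, ← Nat.div_add_mod y W, hx.2, hy.2, hxy]

/-- From a set avoiding degree `2 * d` to a set avoiding degree `d`. -/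
theorem exists_step (k d n a t L' : ℕ) (hk : 2 * d + 1 ≤ k)
    (B : Finset ℕ) (hBL : B ⊆ range (2 ^ L')) (hB : Avoid k (2 * d) B)
    (hQ : (n + 1) * (2 ^ (a + t)) ^ 2 ≤ 2 ^ L') :
    ∃ A : Finset ℕ, A ⊆ range (2 ^ (a * n + (a + t))) ∧ Avoid k d A ∧
      2 ^ (a * n + (a + t)) * B.card ≤ 2 ^ (d * n + 1) * 2 ^ L' * A.card := by
  obtain ⟨w, hw⟩ : ∃ w, w = (2 ^ a + 2 ^ d - 1) / 2 ^ d := ⟨_, rfl⟩
  have hdpos : 0 < 2 ^ d := Nat.two_pow_pos d
  have hw1 : 2 ^ a ≤ 2 ^ d * w := by
    have := Nat.div_add_mod (2 ^ a + 2 ^ d - 1) (2 ^ d)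
    have := Nat.mod_lt (2 ^ a + 2 ^ d - 1) hdpos
    rw [hw]
    omega
  obtain ⟨S, hS⟩ : ∃ S, S = Fintype.piFinset
      (fun i : Fin (n + 1) => range (if (i : ℕ) < n then w else 2 ^ (a + t))) := ⟨_, rfl⟩
  have hScard : S.card = w ^ n * 2 ^ (a + t) := by
    rw [hS, Fintype.card_piFinset, Fin.prod_univ_castSucc]
    simp
  have hlow : ∀ x ∈ S, ∀ i : Fin n, 2 ^ d * x i.castSucc < 2 ^ a ∧ x i.castSucc < 2 ^ a := by
    intro x hx i
    rw [hS, Fintype.mem_piFinset] at hx
    have h := hx i.castSucc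
    simp only [Fin.val_castSucc, i.2, if_true, mem_range] at h
    have h3 : 2 ^ d * (x i.castSucc + 1) ≤ 2 ^ d * w := Nat.mul_le_mul_left _ h
    have h4 : 2 ^ d * w ≤ 2 ^ a + 2 ^ d - 1 := hw ▸ Nat.mul_div_le _ _
    rw [mul_add, mul_one] at h3
    have h5 : 2 ^ d * x i.castSucc < 2 ^ a := by omega
    exact ⟨h5, lt_of_le_of_lt (Nat.le_mul_of_pos_left _ hdpos) h5⟩
  have htop : ∀ x ∈ S, x (Fin.last n) < 2 ^ (a + t) := by
    intro x hx
    rw [hS, Fintype.mem_piFinset] at hx
    have h := hx (Fin.last n)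
    simpa using h
  obtain ⟨num, hnum⟩ : ∃ num : (Fin (n + 1) → ℕ) → ℕ,
      num = fun x => ∑ i : Fin (n + 1), x i * (2 ^ a) ^ (i : ℕ) := ⟨_, rfl⟩
  obtain ⟨Q, hQd⟩ : ∃ Q, Q = (n + 1) * (2 ^ (a + t)) ^ 2 := ⟨_, rfl⟩
  have hxQ : ∀ x ∈ S, ∑ i, x i ^ 2 ≤ Q := by
    intro x hx
    refine (sum_le_card_nsmul univ (fun i => x i ^ 2) ((2 ^ (a + t)) ^ 2) fun i _ => ?_).trans
      (by simp [hQd])
    refine Nat.pow_le_pow_left ?_ 2
    refine Fin.lastCases ?_ ?_ i
    · exact (htop x hx).le
    · intro j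
      exact ((hlow x hx j).2.le).trans (Nat.pow_le_pow_right (by norm_num) (Nat.le_add_right _ _))
  obtain ⟨s, -, hs⟩ := exists_max_image (range (2 ^ L' + Q))
    (fun s => ((S ×ˢ B).filter (fun z => z.2 + Q - ∑ i, z.1 i ^ 2 = s)).card)
    ⟨0, mem_range.2 (Nat.add_pos_left (Nat.two_pow_pos _) _)⟩
  obtain ⟨F, hF⟩ : ∃ F, F = ((S ×ˢ B).filter (fun z => z.2 + Q - ∑ i, z.1 i ^ 2 = s)) := ⟨_, rfl⟩
  have hFmem : ∀ z ∈ F, z.1 ∈ S ∧ z.2 ∈ B ∧ z.2 + Q = s + ∑ i, z.1 i ^ 2 := by
    intro z hz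
    rw [hF, mem_filter, mem_product] at hz
    have := hxQ _ hz.1.1
    exact ⟨hz.1.1, hz.1.2, by omega⟩
  refine ⟨F.image (fun z => num z.1), ?_, ?_, ?_⟩
  · intro v hv
    obtain ⟨z, hz, rfl⟩ := mem_image.1 hv
    have hx := (hFmem z hz).1
    rw [mem_range, hnum]
    simp only [Fin.sum_univ_castSucc, Fin.val_castSucc, Fin.val_last]
    have h1 := digits_lt (2 ^ a) n (fun i => z.1 i.castSucc) (fun i => (hlow _ hx i).2)
    have h2 : (z.1 (Fin.last n) + 1) * (2 ^ a) ^ n ≤ 2 ^ (a + t) * (2 ^ a) ^ n :=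
      Nat.mul_le_mul_right _ (htop _ hx)
    rw [add_mul, one_mul] at h2
    have h3 : 2 ^ (a * n + (a + t)) = 2 ^ (a + t) * (2 ^ a) ^ n := by
      rw [← pow_mul, ← pow_add, add_comm]
    rw [h3]
    omega
  · intro v hv p hp hpv
    have hz : ∀ j, ∃ z, j < k → z ∈ F ∧ num z.1 = v j := by
      intro j
      by_cases hj : j < k
      · obtain ⟨z, hz, hzv⟩ := mem_image.1 (hv j hj)
        exact ⟨z, fun _ => ⟨hz, hzv⟩⟩
      · exact ⟨default, fun h => absurd h hj⟩
    choose z hz using hz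
    obtain ⟨x, hx⟩ : ∃ x : Fin (n + 1) → ℕ → ℤ, x = fun i j => ((z j).1 i : ℤ) := ⟨_, rfl⟩
    have hv0 : ∀ l, l + d + 1 < k →
        (fwdDiff 1)^[d + 1] (fun j => ∑ i, x i j * (2 ^ a : ℤ) ^ (i : ℕ)) l = 0 := by
      intro l hl
      have h := vanish_of_poly d k
        (fun j => ((∑ i, x i j * (2 ^ a : ℤ) ^ (i : ℕ) : ℤ) : ℚ)) p hp
        (fun j hj => by
          rw [hpv j hj, ← (hz j hj).2, hnum, hx]
          push_cast
          rfl) l hl
      rw [fwdDiff_cast] at h
      exact_mod_cast h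
    have hc : ∀ l, l + d + 1 < k → ∀ i, (fwdDiff 1)^[d + 1] (x i) l = 0 := by
      intro l hl
      refine digits_zero ((2 : ℤ) ^ a) (by positivity) n
        (fun i => (fwdDiff 1)^[d + 1] (x i) l) ?_ ?_
      · intro i
        refine lt_of_le_of_lt (abs_diff_le d l _ (((2 ^ a - 1) / 2 ^ d : ℕ) : ℤ) ?_) ?_
        · intro e he
          simp only [hx]
          refine ⟨Int.natCast_nonneg _, ?_⟩
          have := (hlow _ (hFmem _ (hz (l + e) (by omega)).1).1 i).1
          exact_mod_cast (Nat.le_div_iff_mul_le hdpos).2 (by rw [mul_comm]; omega)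
        · have h1 := Nat.mul_div_le (2 ^ a - 1) (2 ^ d)
          have h2 := Nat.two_pow_pos a
          have h3 : 2 ^ d * ((2 ^ a - 1) / 2 ^ d) < 2 ^ a := by omega
          exact_mod_cast h3
      · have he : (fun j => ∑ i : Fin (n + 1), x i j * (2 ^ a : ℤ) ^ (i : ℕ))
            = ∑ i : Fin (n + 1), ((2 ^ a : ℤ) ^ (i : ℕ)) • x i := by
          funext j
          simp [Finset.sum_apply, mul_comm]
        have h := hv0 l hl
        rw [he, fwdDiff_iter_finsetSum, Finset.sum_apply] at h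
        simp only [fwdDiff_iter_const_smul, Pi.smul_apply, smul_eq_mul] at h
        rw [← h]
        exact sum_congr rfl fun i _ => mul_comm _ _
    have hP : ∀ i, ∃ P : ℚ[X], P.natDegree ≤ d ∧ ∀ j < k, P.eval (j : ℚ) = (x i j : ℚ) := by
      intro i
      refine poly_of_vanish d k _ fun j hj => ?_
      rw [fwdDiff_cast, hc j hj i, Int.cast_zero]
    choose P hPd hPe using hP
    have hsq : (∑ i, P i * P i).natDegree ≤ 2 * d := by
      refine natDegree_sum_le_of_forall_le _ _ fun i _ => natDegree_mul_le.trans ?_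
      have := hPd i
      omega
    have hsum : ∀ j < k, (∑ i, P i * P i).eval (j : ℚ) = ((∑ i, (z j).1 i ^ 2 : ℕ) : ℚ) := by
      intro j hj
      rw [eval_finsetSum]
      push_cast
      refine sum_congr rfl fun i _ => ?_
      rw [eval_mul, hPe i j hj, hx]
      push_cast
      ring
    have hb := hB (fun j => (z j).2) (fun j hj => (hFmem _ (hz j hj).1).2.1)
      (∑ i, P i * P i + Polynomial.C ((s : ℚ) - Q))
      ((natDegree_add_le _ _).trans (max_le hsq ((natDegree_C _).le.trans (Nat.zero_le _))))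
      (fun j hj => by
        rw [eval_add, eval_C, hsum j hj]
        have h := (hFmem _ (hz j hj).1).2.2
        have h' : ((z j).2 : ℚ) + Q = s + ((∑ i, (z j).1 i ^ 2 : ℕ) : ℚ) := by exact_mod_cast h
        linarith)
    obtain ⟨r, hr⟩ : ∃ r : ℕ, r = ∑ i, (z 0).1 i ^ 2 := ⟨_, rfl⟩
    have hG : ∑ i, P i * P i - Polynomial.C (r : ℚ) = 0 := by
      refine alt_elim (2 * d) 0 k _ 0
        ((natDegree_sub_le _ _).trans (max_le hsq ((natDegree_C _).le.trans (Nat.zero_le _))))
        (by rw [degree_zero]; exact WithBot.bot_lt_coe _) (by omega) fun j hj => ?_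
      rw [eval_sub, eval_C, hsum j hj, eval_zero, mul_zero, add_zero, sub_eq_zero, Nat.cast_inj, hr]
      have h1 := (hFmem _ (hz j hj).1).2.2
      have h2 := (hFmem _ (hz 0 (by omega)).1).2.2
      have h3 : (z j).2 = (z 0).2 := hb j hj
      omega
    have hconst := const_of_sum_sq P (r : ℚ) (sub_eq_zero.1 hG)
    intro j hj
    rw [← (hz j hj).2, ← (hz 0 (by omega)).2]
    congr 1
    funext i
    have h1 := hPe i j hj
    have h2 := hPe i 0 (by omega)
    rw [eq_C_of_natDegree_eq_zero (hconst i), eval_C, hx] at h1 h2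
    push_cast at h1 h2
    exact_mod_cast h1.symm.trans h2
  · have hinj : (F.image (fun z => num z.1)).card = F.card := by
      refine card_image_of_injOn fun z hz u hu hzu => ?_
      have hzm := hFmem z hz
      have hum := hFmem u hu
      have heq : z.1 = u.1 := by
        have h0 := digits_zero ((2 : ℤ) ^ a) (by positivity) n
          (fun i => (z.1 i : ℤ) - u.1 i) ?_ ?_
        · funext i
          have := h0 i
          beta_reduce at this
          omega
        · intro i
          have h1 := (hlow _ hzm.1 i).2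
          have h2 := (hlow _ hum.1 i).2
          have h1' : (z.1 i.castSucc : ℤ) < 2 ^ a := by exact_mod_cast h1
          have h2' : (u.1 i.castSucc : ℤ) < 2 ^ a := by exact_mod_cast h2
          rw [abs_lt]
          constructor <;> linarith [Int.natCast_nonneg (z.1 i.castSucc),
            Int.natCast_nonneg (u.1 i.castSucc)]
        · simp only [hnum] at hzu
          simp only [sub_mul, sum_sub_distrib, sub_eq_zero]
          exact_mod_cast hzu
      refine Prod.ext heq ?_
      have h1 := hzm.2.2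
      have h2 := hum.2.2
      rw [heq] at h1
      omega
    rw [hinj]
    have hsum : (S ×ˢ B).card ≤ (2 ^ L' + Q) * F.card := by
      rw [card_eq_sum_card_fiberwise (f := fun z => z.2 + Q - ∑ i, z.1 i ^ 2)
        (t := range (2 ^ L' + Q)) ?_]
      · refine (sum_le_card_nsmul _ _ _ hs).trans ?_
        rw [card_range, smul_eq_mul, hF]
      · intro z hz
        simp only [coe_product, Set.mem_prod, mem_coe] at hz
        simp only [coe_range, Set.mem_Iio]
        have := mem_range.1 (hBL hz.2)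
        omega
    rw [card_product, hScard] at hsum
    have h1 : (2 ^ a) ^ n ≤ 2 ^ (d * n) * w ^ n := by
      rw [pow_mul, ← mul_pow]
      exact Nat.pow_le_pow_left hw1 n
    calc 2 ^ (a * n + (a + t)) * B.card = (2 ^ a) ^ n * 2 ^ (a + t) * B.card := by
          rw [← pow_mul, ← pow_add]
      _ ≤ 2 ^ (d * n) * w ^ n * 2 ^ (a + t) * B.card := by
          exact Nat.mul_le_mul_right _ (Nat.mul_le_mul_right _ h1)
      _ = 2 ^ (d * n) * (w ^ n * 2 ^ (a + t) * B.card) := by ring
      _ ≤ 2 ^ (d * n) * ((2 ^ L' + 2 ^ L') * F.card) := by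
          refine Nat.mul_le_mul_left _ (hsum.trans (Nat.mul_le_mul_right _ ?_))
          rw [hQd]
          omega
      _ = 2 ^ (d * n + 1) * 2 ^ L' * F.card := by ring

end Vale.Agent.P057
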